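import Crest.Agent.N325.Lf.Sel

/-! The packaged result of one LocalFlow call (definitions, helper30). -/

set_option autoImplicit false
open Finset

namespace Crest.Agent.N325.Lf

/-- total amount of the entries of `l` whose vertex lies in `T` -/
def lsum (l : List (ℕ × ℕ)) (T : Finset ℕ) : ℕ :=
  ((l.filter fun p => decide (p.1 ∈ T)).map Prod.snd).sum

/-- Hypotheses of a call: capacities `K * w`, measure `mu` dominating the `w`-degrees,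
`mu V ≤ M < 2 ^ k`, height at least `2 D k + 2`, work bound `Bw`, all numbers at most `X`. -/
structure Call (N : Net) (V E : Finset ℕ) (w mu : ℕ → ℕ) (K D M k Bw X : ℕ) (W0 : List ℕ) :
    Prop where
  wf : N.WF V E
  start : Start N V W0
  capK : ∀ e ∈ E, N.cap e = K * w e
  dead : ∀ e, N.cap e = 0 → w e = 0
  deg : ∀ v ∈ V, N.wdeg E w v ≤ mu v
  muM : ∑ v ∈ V, mu v ≤ M
  Mk : M < 2 ^ k
  hh : 2 * D * k + 2 ≤ N.h
  bd : N.Bd V E Bw
  KM : K * M ≤ X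
  MX : M ≤ X
  aX : ∑ v ∈ V, N.a v ≤ X

/-- The result: flow `f`, excess `x`, cut side `P`, level list `l` of (lower end, `w`-weight). -/
structure Res (N : Net) (V E : Finset ℕ) (w mu : ℕ → ℕ) (K D M Bw : ℕ)
    (f : ℕ → ℤ) (x : ℕ) (P : List ℕ) (l : List (ℕ × ℕ)) : Prop where
  nd : P.Nodup
  sub : P.toFinset ⊆ V
  fl : ∀ e, (f e).natAbs ≤ N.cap e
  supp : ∀ e, f e ≠ 0 → e ∈ E
  exc : (x : ℤ) = N.exc V E f
  full : ∀ v ∈ P, (N.b v : ℤ) ≤ N.a v + N.dv E f v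
  bP : ∑ v ∈ P.toFinset, N.b v + x ≤ ∑ v ∈ V, N.a v
  trim : ∀ T ⊆ V \ P.toFinset, ∑ v ∈ T, N.a v + K * N.crs E w T P.toFinset
    ≤ ∑ v ∈ T, N.b v + K * N.crs E w T ((V \ P.toFinset) \ T) + 2 * K * lsum l T
  cut : K * N.crs E w P.toFinset (V \ P.toFinset) + ∑ v ∈ P.toFinset, N.b v + x
    ≤ ∑ v ∈ P.toFinset, N.a v + 2 * K * (l.map Prod.snd).sum
  excP : ∑ v ∈ P.toFinset, N.b v + x ≤ ∑ v ∈ P.toFinset, N.a v + K * (l.map Prod.snd).sum
  compl : x + ∑ v ∈ V, N.b v ≤ ∑ v ∈ V \ P.toFinset, N.b v + ∑ v ∈ V, N.a v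
  sel : D * (l.map Prod.snd).sum ≤ min (∑ v ∈ P.toFinset, mu v) (M - ∑ v ∈ P.toFinset, mu v)
  lmem : ∀ p ∈ l, 0 < p.2 → p.1 ∈ V \ P.toFinset
  lenP : (P.map fun v => 1 + (N.adj v).length).sum ≤ Bw
  lenl : l.length ≤ Bw

end Crest.Agent.N325.Lf
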