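import Crest.Agent.N325.Lf.Cut0

/-! Executable level selection after a LocalFlow run (definitions only, helper30). -/

set_option autoImplicit false

namespace Crest.Agent.N325.Lf

/-- the list of the vertices of `lev V lab j` (`j ≥ 1`) -/
def upL (lab : ℕ → ℕ) (tch : List ℕ) (j : ℕ) : List ℕ := tch.filter fun v => decide (j ≤ lab v)

/-- `e` joins `v` to a vertex one level lower -/
def dn (N : Net) (lab : ℕ → ℕ) (v e : ℕ) : Bool :=
  decide ((N.src e = v ∧ lab (N.dst e) + 1 = lab v) ∨ (N.dst e = v ∧ lab (N.src e) + 1 = lab v))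

/-- the edge ids between level `j` and level `j - 1` (`j ≥ 1`) -/
def levE (N : Net) (lab : ℕ → ℕ) (tch : List ℕ) (j : ℕ) : List ℕ :=
  (tch.filter fun v => decide (lab v = j)).flatMap fun v => (N.adj v).filter (dn N lab v)

/-- the end of `e` with the smaller label -/
def lowE (N : Net) (lab : ℕ → ℕ) (e : ℕ) : ℕ :=
  if lab (N.src e) ≤ lab (N.dst e) then N.src e else N.dst e

/-- level `j` is good: `D * w(level edges) ≤ min (mu S_j) (M - mu S_j)` -/
def good (N : Net) (w mu : ℕ → ℕ) (D M : ℕ) (lab : ℕ → ℕ) (tch : List ℕ) (j : ℕ) : Bool :=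
  decide (D * ((levE N lab tch j).map w).sum
    ≤ min ((upL lab tch j).map mu).sum (M - ((upL lab tch j).map mu).sum))

/-- the first good level in `1..h` (`0` if there is none) -/
def pick (N : Net) (w mu : ℕ → ℕ) (D M : ℕ) (lab : ℕ → ℕ) (tch : List ℕ) : ℕ :=
  (List.range' 1 N.h).foldl (fun s j => if s = 0 ∧ good N w mu D M lab tch j = true then j else s) 0

end Crest.Agent.N325.Lf
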