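import Crest.Agent.N325.Lf.Cut
import Crest.Agent.N325.Lf.Sel

/-! Correctness of the level selection (helper30). -/

set_option autoImplicit false
open Finset

namespace Crest.Agent.N325.Lf

variable {N : Net} {V E : Finset ℕ} {f : ℕ → ℤ} {lab : ℕ → ℕ} {tch : List ℕ}

theorem mem_upL (hp : Pre N V E f lab tch) {j : ℕ} (h1 : 1 ≤ j) {v : ℕ} :
    v ∈ upL lab tch j ↔ v ∈ lev V lab j := by
  rw [upL, List.mem_filter, mem_lev, decide_eq_true_iff]
  exact ⟨fun h => ⟨hp.tch_mem v h.1, h.2⟩, fun h => ⟨(hp.tch_iff v).2 (by omega), h.2⟩⟩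

theorem upL_nodup (hp : Pre N V E f lab tch) (j : ℕ) : (upL lab tch j).Nodup :=
  hp.tch_nodup.filter _

theorem upL_toFinset (hp : Pre N V E f lab tch) {j : ℕ} (h1 : 1 ≤ j) :
    (upL lab tch j).toFinset = lev V lab j := by
  ext v; rw [List.mem_toFinset, mem_upL hp h1]

theorem upL_sum (hp : Pre N V E f lab tch) {j : ℕ} (h1 : 1 ≤ j) (mu : ℕ → ℕ) :
    ((upL lab tch j).map mu).sum = ∑ v ∈ lev V lab j, mu v := by
  rw [← upL_toFinset hp h1, List.sum_toFinset _ (upL_nodup hp j)]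

theorem mem_levE {j e : ℕ} : e ∈ levE N lab tch j ↔ ∃ v ∈ tch, lab v = j ∧ e ∈ N.adj v ∧
    ((N.src e = v ∧ lab (N.dst e) + 1 = lab v) ∨ (N.dst e = v ∧ lab (N.src e) + 1 = lab v)) := by
  simp only [levE, dn, List.mem_flatMap, List.mem_filter, decide_eq_true_iff]
  exact ⟨fun ⟨v, ⟨a, b⟩, c, d⟩ => ⟨v, a, b, c, d⟩, fun ⟨v, a, b, c, d⟩ => ⟨v, ⟨a, b⟩, c, d⟩⟩

theorem levE_nodup (hN : N.WF V E) (hp : Pre N V E f lab tch) (j : ℕ) :
    (levE N lab tch j).Nodup := by
  unfold levE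
  rw [List.nodup_flatMap]
  refine ⟨fun v hv => (hN.nodup v (hp.tch_mem v (List.mem_filter.1 hv).1)).filter _, ?_⟩
  refine List.Pairwise.imp_of_mem ?_ (hp.tch_nodup.filter fun v => decide (lab v = j))
  intro a b ha hb hab e h1 h2
  have ha' : lab a = j := by simpa using (List.mem_filter.1 ha).2
  have hb' : lab b = j := by simpa using (List.mem_filter.1 hb).2
  have k1 := (List.mem_filter.1 h1).2
  have k2 := (List.mem_filter.1 h2).2
  simp only [dn, decide_eq_true_iff] at k1 k2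
  rcases k1 with ⟨x, y⟩ | ⟨x, y⟩ <;> rcases k2 with ⟨x', y'⟩ | ⟨x', y'⟩
  · exact hab (x.symm.trans x')
  · rw [x'] at y; omega
  · rw [x'] at y; omega
  · exact hab (x.symm.trans x')

/-- the weight of the level edges satisfying `p` as a sum over `E` -/
theorem levE_filter_sum (hN : N.WF V E) (hp : Pre N V E f lab tch) {j : ℕ} (h1 : 1 ≤ j)
    {w : ℕ → ℕ} (hw : ∀ e, N.cap e = 0 → w e = 0) (p : ℕ → Prop) [DecidablePred p] :
    (((levE N lab tch j).filter fun e => decide (p e)).map w).sum =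
      ∑ e ∈ E, if p e ∧ ((lab (N.src e) = j ∧ lab (N.dst e) + 1 = j) ∨
        (lab (N.dst e) = j ∧ lab (N.src e) + 1 = j)) then w e else 0 := by
  rw [← List.sum_toFinset _ ((levE_nodup hN hp j).filter _), ← sum_filter]
  refine sum_bij_ne_zero (fun e _ _ => e) ?_ (fun _ _ _ _ _ _ h => h) ?_ fun _ _ _ => rfl
  · intro e he hne
    have hc : 0 < N.cap e := Nat.pos_of_ne_zero fun h => hne (hw e h)
    rw [List.mem_toFinset, List.mem_filter, mem_levE, decide_eq_true_iff] at he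
    obtain ⟨⟨v, a, b, c, d⟩, pe⟩ := he
    refine mem_filter.2 ⟨(hN.live v (hp.tch_mem v a) e c hc), pe, ?_⟩
    rcases d with ⟨x, y⟩ | ⟨x, y⟩
    · left; rw [x]; omega
    · right; rw [x]; omega
  · intro e he hne
    have hc : 0 < N.cap e := Nat.pos_of_ne_zero fun h => hne (hw e h)
    obtain ⟨hE, pe, d⟩ := mem_filter.1 he
    refine ⟨e, ?_, hne, rfl⟩
    rw [List.mem_toFinset, List.mem_filter, mem_levE, decide_eq_true_iff]
    refine ⟨?_, pe⟩
    rcases d with ⟨x, y⟩ | ⟨x, y⟩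
    · exact ⟨N.src e, (hp.tch_iff _).2 (by omega), x, (hN.full e hE hc).1, Or.inl ⟨rfl, by omega⟩⟩
    · exact ⟨N.dst e, (hp.tch_iff _).2 (by omega), x, (hN.full e hE hc).2, Or.inr ⟨rfl, by omega⟩⟩

theorem levE_sum (hN : N.WF V E) (hp : Pre N V E f lab tch) {j : ℕ} (h1 : 1 ≤ j)
    {w : ℕ → ℕ} (hw : ∀ e, N.cap e = 0 → w e = 0) :
    ((levE N lab tch j).map w).sum = N.zedw E w lab j := by
  have := levE_filter_sum hN hp h1 hw (fun _ => True)
  simpa [Net.zedw] using this

theorem levE_low_sum (hN : N.WF V E) (hp : Pre N V E f lab tch) {j : ℕ} (h1 : 1 ≤ j)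
    {w : ℕ → ℕ} (hw : ∀ e, N.cap e = 0 → w e = 0) (T : Finset ℕ) :
    (((levE N lab tch j).filter fun e => decide (lowE N lab e ∈ T)).map w).sum =
      ∑ v ∈ T, N.zvw E w lab j v := by
  rw [levE_filter_sum hN hp h1 hw, sum_zvw]
  refine sum_congr rfl fun e _ => if_congr ?_ rfl rfl
  unfold lowE
  split_ifs with h
  · exact ⟨fun ⟨a, b⟩ => Or.inl ⟨a, by omega⟩, fun k => k.elim (fun k => ⟨k.1, by omega⟩)
      fun k => by omega⟩
  · exact ⟨fun ⟨a, b⟩ => Or.inr ⟨a, by omega⟩, fun k => k.elim (fun k => by omega)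
      fun k => ⟨k.1, by omega⟩⟩

theorem lowE_mem (hN : N.WF V E) (hp : Pre N V E f lab tch) {j e : ℕ}
    (he : e ∈ levE N lab tch j) (hc : 0 < N.cap e) : lowE N lab e ∈ V \ lev V lab j := by
  obtain ⟨v, a, b, c, d⟩ := mem_levE.1 he
  have hE := (hN.live v (hp.tch_mem v a) e c hc)
  rw [mem_sdiff, mem_lev]
  unfold lowE
  rcases d with ⟨x, y⟩ | ⟨x, y⟩ <;> subst x <;> split_ifs with h
  · omega
  · exact ⟨hN.dst_mem e hE, fun k => by omega⟩
  · exact ⟨hN.src_mem e hE, fun k => by omega⟩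
  · omega

theorem sum_lev_succ (mu : ℕ → ℕ) (j : ℕ) : ∑ v ∈ lev V lab j, mu v =
    ∑ v ∈ lev V lab (j + 1), mu v + ∑ v ∈ V.filter (fun v => lab v = j), mu v := by
  simp only [lev, sum_filter, ← sum_add_distrib]
  refine sum_congr rfl fun v _ => ?_
  split_ifs <;> omega

/-- geometric growth -/
theorem grow {b : ℕ → ℕ} {D n : ℕ} (h : ∀ i < n, D * b i + b i < D * b (i + 1)) (k : ℕ)
    (hk : D * k + 1 ≤ n) : 2 ^ k ≤ b (D * k + 1) := by
  have mono : ∀ i < n, b i < b (i + 1) := fun i hi =>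
    Nat.lt_of_mul_lt_mul_left (a := D) (by have := h i hi; omega)
  have step : ∀ i t, i + t ≤ n → D * b i + t * b i ≤ D * b (i + t) ∧ b i ≤ b (i + t) := by
    intro i t
    induction t with
    | zero => intro _; simp
    | succ t ih =>
      intro ht
      obtain ⟨a1, a2⟩ := ih (by omega)
      have a3 := h (i + t) (by omega)
      have a4 := mono (i + t) (by omega)
      rw [← add_assoc, Nat.succ_mul]
      omega
  induction k with
  | zero => have := mono 0 (by omega); simp only [mul_zero, zero_add, pow_zero] at this ⊢; omega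
  | succ k ih =>
    have e : D * (k + 1) + 1 = D * k + 1 + D := by ring
    rw [e] at hk ⊢
    have a1 := ih (by omega)
    have a2 := (step (D * k + 1) D hk).1
    have hD : 0 < D := by
      rcases Nat.eq_zero_or_pos D with rfl | h0
      · have := h 0 (by omega); simp at this
      · exact h0
    have a3 : D * (2 * b (D * k + 1)) ≤ D * b (D * k + 1 + D) := by rw [mul_left_comm]; omega
    have a4 := Nat.le_of_mul_le_mul_left a3 hD
    rw [pow_succ]; omega

/-- some level is sparse on both sides -/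
theorem exists_good (hN : N.WF V E) {w mu : ℕ → ℕ} (hdeg : ∀ v ∈ V, N.wdeg E w v ≤ mu v)
    {D M k h : ℕ} (hM : ∑ v ∈ V, mu v ≤ M) (hk : M < 2 ^ k) (hh : 2 * D * k + 2 ≤ h) :
    ∃ j, 1 ≤ j ∧ j ≤ h ∧ D * N.zedw E w lab j ≤
      min (∑ v ∈ lev V lab j, mu v) (M - ∑ v ∈ lev V lab j, mu v) := by
  by_contra hc
  push Not at hc
  set a : ℕ → ℕ := fun j => ∑ v ∈ lev V lab j, mu v with ha
  have aM : ∀ j, a j ≤ M := fun j => (sum_le_sum_of_subset (lev_subset j)).trans hM
  have anti : ∀ i j, i ≤ j → a j ≤ a i := fun i j h => sum_le_sum_of_subset (lev_anti h)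
  have hi : ∀ j, N.zedw E w lab j + a (j + 1) ≤ a j := fun j => by
    have h1 := zedw_le_hi (lab := lab) hN w j
    have h2 : ∑ v ∈ V.filter (fun v => lab v = j), N.wdeg E w v ≤
      ∑ v ∈ V.filter (fun v => lab v = j), mu v :=
      sum_le_sum fun v hv => hdeg v (mem_filter.1 hv).1
    have h3 := sum_lev_succ (V := V) (lab := lab) mu j
    simp only [ha]; omega
  have lo : ∀ j, N.zedw E w lab (j + 1) + a (j + 1) ≤ a j := fun j => by
    have h1 := zedw_le_lo (lab := lab) hN w (j + 1)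
    simp only [add_left_inj] at h1
    have h2 : ∑ v ∈ V.filter (fun v => lab v = j), N.wdeg E w v ≤
      ∑ v ∈ V.filter (fun v => lab v = j), mu v :=
      sum_le_sum fun v hv => hdeg v (mem_filter.1 hv).1
    have h3 := sum_lev_succ (V := V) (lab := lab) mu j
    simp only [ha]; omega
  have e2 : 2 * D * k = D * k + D * k := by ring
  by_cases hm : a (D * k + 1) ≤ M - a (D * k + 1)
  · have := grow (b := fun i => a (2 * (D * k) + 2 - i)) (D := D) (n := D * k + 1) (fun i hi' => by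
      obtain ⟨j, hj⟩ : ∃ j, 2 * (D * k) + 2 - i = j + 1 := ⟨2 * (D * k) + 1 - i, by omega⟩
      have hj' : 2 * (D * k) + 2 - (i + 1) = j := by omega
      simp only [hj, hj']
      have c1 := hc (j + 1) (by omega) (by omega)
      have c2 := anti (D * k + 1) (j + 1) (by omega)
      have c3 := Nat.mul_le_mul_left D (lo j)
      rw [mul_add] at c3
      change min (a (j + 1)) (M - a (j + 1)) < _ at c1
      omega) k le_rfl
    have := aM (2 * (D * k) + 2 - (D * k + 1))
    omega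
  · have := grow (b := fun i => M - a (i + 1)) (D := D) (n := D * k + 1) (fun i hi' => by
      have c1 := hc (i + 1) (by omega) (by omega)
      have c2 := anti (i + 1) (D * k + 1) (by omega)
      have c4 := hi (i + 1)
      have c5 := aM (i + 1)
      have c3 : D * (N.zedw E w lab (i + 1) + (M - a (i + 1))) ≤ D * (M - a (i + 1 + 1)) :=
        Nat.mul_le_mul_left D (by omega)
      rw [mul_add] at c3
      change min (a (i + 1)) (M - a (i + 1)) < _ at c1
      omega) k le_rfl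
    omega

theorem foldl_first (p : ℕ → Prop) [DecidablePred p] (l : List ℕ) (s : ℕ) :
    (s ≠ 0 → l.foldl (fun s j => if s = 0 ∧ p j then j else s) s = s) ∧
    (s = 0 → (∀ j ∈ l, j ≠ 0) → (∃ j ∈ l, p j) →
      l.foldl (fun s j => if s = 0 ∧ p j then j else s) s ∈ l ∧
        p (l.foldl (fun s j => if s = 0 ∧ p j then j else s) s)) := by
  induction l generalizing s with
  | nil => simp
  | cons a l ih =>
    rw [List.foldl_cons]
    refine ⟨fun h => by rw [if_neg fun k => h k.1]; exact (ih s).1 h, ?_⟩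
    rintro rfl h0 ⟨j, hj, pj⟩
    by_cases pa : p a
    · rw [if_pos ⟨rfl, pa⟩, (ih a).1 (h0 a List.mem_cons_self)]
      exact ⟨List.mem_cons_self, pa⟩
    · rw [if_neg fun k => pa k.2]
      have := (ih 0).2 rfl (fun j hj => h0 j (List.mem_cons_of_mem _ hj))
        ⟨j, (List.mem_cons.1 hj).resolve_left fun e => pa (e ▸ pj), pj⟩
      exact ⟨List.mem_cons_of_mem _ this.1, this.2⟩

theorem good_iff (hN : N.WF V E) (hp : Pre N V E f lab tch) {w mu : ℕ → ℕ}
    (hw : ∀ e, N.cap e = 0 → w e = 0) {D M j : ℕ} (h1 : 1 ≤ j) :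
    good N w mu D M lab tch j = true ↔ D * N.zedw E w lab j ≤
      min (∑ v ∈ lev V lab j, mu v) (M - ∑ v ∈ lev V lab j, mu v) := by
  rw [good, decide_eq_true_iff, levE_sum hN hp h1 hw, upL_sum hp h1]

theorem pick_spec (hN : N.WF V E) (hp : Pre N V E f lab tch) {w mu : ℕ → ℕ}
    (hw : ∀ e, N.cap e = 0 → w e = 0) (hdeg : ∀ v ∈ V, N.wdeg E w v ≤ mu v)
    {D M k : ℕ} (hM : ∑ v ∈ V, mu v ≤ M) (hk : M < 2 ^ k) (hh : 2 * D * k + 2 ≤ N.h) :
    1 ≤ pick N w mu D M lab tch ∧ pick N w mu D M lab tch ≤ N.h ∧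
      D * N.zedw E w lab (pick N w mu D M lab tch) ≤
        min (∑ v ∈ lev V lab (pick N w mu D M lab tch), mu v)
          (M - ∑ v ∈ lev V lab (pick N w mu D M lab tch), mu v) := by
  obtain ⟨j, j1, j2, j3⟩ := exists_good (lab := lab) hN hdeg hM hk hh
  have := (foldl_first (fun j => good N w mu D M lab tch j = true) (List.range' 1 N.h) 0).2 rfl
    (fun j hj => by have := List.mem_range'_1.1 hj; omega)
    ⟨j, List.mem_range'_1.2 (by omega), (good_iff hN hp hw j1).2 j3⟩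
  have h1 := List.mem_range'_1.1 this.1
  change 1 ≤ pick N w mu D M lab tch ∧ pick N w mu D M lab tch < 1 + N.h at h1
  exact ⟨h1.1, by omega, (good_iff hN hp hw h1.1).1 this.2⟩

end Crest.Agent.N325.Lf
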