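import Crest.Agent.N325.Lst.ListR
import Crest.Agent.N325.Lf.Sel

/-! The level scan after a LocalFlow run as `R`-programs (helper30). -/

set_option autoImplicit false

namespace Crest.Agent.N325.Lf

variable {g : Gl}

/-- scanned volume of a vertex list -/
def svol (N : Net) (l : List ℕ) : ℕ := (l.map fun v => 1 + (N.adj v).length).sum

theorem length_le_svol (N : Net) (l : List ℕ) : l.length ≤ svol N l := by
  induction l with
  | nil => exact le_rfl
  | cons a l ih => simp only [svol, List.map_cons, List.sum_cons, List.length_cons] at ih ⊢; omega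

theorem svol_filter (N : Net) (p : ℕ → Bool) (l : List ℕ) : svol N (l.filter p) ≤ svol N l := by
  induction l with
  | nil => exact le_rfl
  | cons a l ih =>
    simp only [svol, List.filter_cons] at ih ⊢
    split_ifs <;> simp only [List.map_cons, List.sum_cons] <;> omega

theorem flat_le_svol (N : Net) (p : ℕ → ℕ → Bool) (l : List ℕ) :
    (l.flatMap fun v => (N.adj v).filter (p v)).length + l.length ≤ svol N l := by
  induction l with
  | nil => exact le_rfl
  | cons a l ih =>
    have := List.length_filter_le (p a) (N.adj a)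
    simp only [svol, List.flatMap_cons, List.length_append, List.map_cons, List.sum_cons,
      List.length_cons] at ih ⊢
    omega

theorem cost_le_svol (N : Net) (l : List ℕ) :
    (l.map fun v => 2 * (N.adj v).length + 2).sum = 2 * svol N l := by
  induction l with
  | nil => rfl
  | cons a l ih => simp only [svol, List.map_cons, List.sum_cons] at ih ⊢; omega

theorem length_levE (N : Net) (lab : ℕ → ℕ) (tch : List ℕ) (j : ℕ) :
    (levE N lab tch j).length ≤ svol N tch :=
  (Nat.le_add_right _ _).trans ((flat_le_svol N _ _).trans (svol_filter N _ _))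

def upR (lab : Arr ℕ) (tch : List ℕ) (j : ℕ) : R (List ℕ) :=
  filterP (fun v => decide (j ≤ lab.get v)) tch

theorem sp_upR (N : Net) (lab : Arr ℕ) (tch : List ℕ) (j : ℕ) :
    Sp g (upR lab tch j) fun r t => r = upL lab.get tch j ∧ t ≤ 2 * svol N tch + 2 :=
  (sp_filterP _ _).mono fun _ _ k => ⟨k.1, by have := length_le_svol N tch; omega⟩

def levR (N : Net) (lab : Arr ℕ) (tch : List ℕ) (j : ℕ) : R (List ℕ) :=
  filterP (fun v => decide (lab.get v = j)) tch >>= fun L =>
    flatMapL (fun v => filterP (dn N lab.get v) (N.adj v)) L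

theorem sp_levR (N : Net) (lab : Arr ℕ) (tch : List ℕ) (j : ℕ) :
    Sp g (levR N lab tch j) fun r t => r = levE N lab.get tch j ∧ t ≤ 6 * svol N tch + 4 := by
  refine (sp_filterP _ _).bind ?_
  rintro _ t ⟨rfl, ht⟩
  refine (sp_flatMapL (fun v => (N.adj v).filter (dn N lab.get v))
    (fun v => 2 * (N.adj v).length + 2) fun a _ => sp_filterP _ _).mono ?_
  rintro _ u ⟨rfl, hu⟩
  refine ⟨rfl, ?_⟩
  rw [cost_le_svol] at hu
  have h1 := flat_le_svol N (dn N lab.get) (tch.filter fun v => decide (lab.get v = j))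
  have h2 := svol_filter N (fun v => decide (lab.get v = j)) tch
  have h3 := length_le_svol N tch
  omega

def goodR (N : Net) (w mu : ℕ → ℕ) (D M : ℕ) (lab : Arr ℕ) (tch : List ℕ) (j : ℕ) : R Bool :=
  upR lab tch j >>= fun P => sumL mu P >>= fun a => levR N lab tch j >>= fun Z =>
    sumL w Z >>= fun z => pure (decide (D * z ≤ min a (M - a)))

theorem sp_goodR (N : Net) (w mu : ℕ → ℕ) (D M : ℕ) (lab : Arr ℕ) (tch : List ℕ) (j : ℕ)
    (h1 : ((upL lab.get tch j).map mu).sum ≤ g.X) (h2 : ((levE N lab.get tch j).map w).sum ≤ g.X) :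
    Sp g (goodR N w mu D M lab tch j) fun r t =>
      r = good N w mu D M lab.get tch j ∧ t ≤ 10 * svol N tch + 8 := by
  refine (sp_upR N lab tch j).bind ?_
  rintro _ t1 ⟨rfl, k1⟩
  refine (sp_sumL mu _ h1).bind ?_
  rintro _ t2 ⟨rfl, k2⟩
  refine (sp_levR N lab tch j).bind ?_
  rintro _ t3 ⟨rfl, k3⟩
  refine (sp_sumL w _ h2).bind ?_
  rintro _ t4 ⟨rfl, k4⟩
  refine sp_pure.2 ⟨rfl, ?_⟩
  have a1 := length_levE N lab.get tch j
  have a2 : (upL lab.get tch j).length ≤ tch.length := List.length_filter_le _ _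
  have a3 := length_le_svol N tch
  omega

def pickR (N : Net) (w mu : ℕ → ℕ) (D M : ℕ) (lab : Arr ℕ) (tch : List ℕ) : R ℕ :=
  forN (fun j s => goodR N w mu D M lab tch j >>= fun b =>
    pure (if s = 0 ∧ b = true then j else s)) N.h 1 0

theorem sp_pickR (N : Net) (w mu : ℕ → ℕ) (D M : ℕ) (lab : Arr ℕ) (tch : List ℕ)
    (h1 : ∀ j, 1 ≤ j → ((upL lab.get tch j).map mu).sum ≤ g.X)
    (h2 : ∀ j, 1 ≤ j → ((levE N lab.get tch j).map w).sum ≤ g.X) :
    Sp g (pickR N w mu D M lab tch) fun r t =>
      r = pick N w mu D M lab.get tch ∧ t ≤ N.h * (10 * svol N tch + 9) + 1 := by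
  refine (sp_forN' (fun j s => s = (List.range' 1 (j - 1)).foldl
    (fun s j => if s = 0 ∧ good N w mu D M lab.get tch j = true then j else s) 0)
    (10 * svol N tch + 8) (fun j s a _ k => ?_) (s := 0) rfl).mono ?_
  · refine (sp_goodR N w mu D M lab tch j (h1 j a) (h2 j a)).bind ?_
    rintro _ t ⟨rfl, ht⟩
    refine sp_pure.2 ⟨?_, by omega⟩
    obtain ⟨i, rfl⟩ : ∃ i, j = i + 1 := ⟨j - 1, by omega⟩
    rw [Nat.add_sub_cancel] at k ⊢
    rw [List.range'_concat, List.foldl_append, ← k]
    simp [add_comm]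
  · rintro r t ⟨k, ht⟩
    rw [Nat.add_sub_cancel_left] at k
    exact ⟨k, ht⟩

end Crest.Agent.N325.Lf
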