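import Crest.Agent.N325.Lf.Prog
import Crest.Agent.N325.Lf.Scan
import Crest.Agent.N325.Lf.Pick
import Crest.Agent.N325.Lf.Res

/-! **LocalFlow**: the packaged program `lf` and its specification (helper30). -/

set_option autoImplicit false
open Finset

namespace Crest.Agent.N325.Lf

variable {N : Net} {V E : Finset ℕ} {w mu : ℕ → ℕ} {K D M k Bw X : ℕ} {W0 : List ℕ}
  {f : ℕ → ℤ} {lab : ℕ → ℕ} {tch : List ℕ}

/-- flow, excess, cut side, level list -/
def lf (N : Net) (w mu : ℕ → ℕ) (D M : ℕ) (W0 : List ℕ) (fu : ℕ) :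
    R (Arr ℤ × ℕ × List ℕ × List (ℕ × ℕ)) :=
  runR N W0 fu >>= fun s =>
    sumL (fun v => (N.ex s.2.1.get v).toNat) s.2.2.2.2.2 >>= fun x =>
      pickR N w mu D M s.2.2.1 s.2.2.2.2.2 >>= fun p =>
        upR s.2.2.1 s.2.2.2.2.2 p >>= fun P =>
          levR N s.2.2.1 s.2.2.2.2.2 p >>= fun Z =>
            mapP (fun e => (lowE N s.2.2.1.get e, w e)) Z >>= fun l =>
              pure (s.1, x, P, l)

theorem Call.cvol_le (C : Call N V E w mu K D M k Bw X W0) (v : ℕ) : N.cvol E v ≤ X := by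
  by_cases hv : v ∈ V
  · have h1 : N.cvol E v = K * N.wdeg E w v := by
      unfold Net.cvol Net.wdeg
      rw [mul_sum]
      refine sum_congr rfl fun e he => ?_
      rw [C.capK e he]; split_ifs <;> simp
    have h2 : mu v ≤ ∑ v ∈ V, mu v := single_le_sum (fun _ _ => Nat.zero_le _) hv
    exact h1.trans_le ((Nat.mul_le_mul_left K ((C.deg v hv).trans (h2.trans C.muM))).trans C.KM)
  · refine le_trans (le_of_eq (sum_eq_zero fun e he => if_neg ?_)) (Nat.zero_le _)
    rintro (h | h)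
    · exact hv (h ▸ C.wf.src_mem e he)
    · exact hv (h ▸ C.wf.dst_mem e he)

theorem Call.cap_le (C : Call N V E w mu K D M k Bw X W0) {e : ℕ} (he : e ∈ E) : N.cap e ≤ X :=
  le_trans (le_trans (by simp) (single_le_sum (f := fun e' =>
    if N.src e' = N.src e ∨ N.dst e' = N.src e then N.cap e' else 0)
    (fun _ _ => Nat.zero_le _) he)) (C.cvol_le (N.src e))

theorem Pre.natAbs_le (hp : Pre N V E f lab tch) (e : ℕ) : (f e).natAbs ≤ N.cap e := by
  have := hp.le_cap e; have := hp.neg_le e; omega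

theorem Pre.svol_le (hN : N.WF V E) (hp : Pre N V E f lab tch) (hB : N.Bd V E Bw) :
    svol N tch ≤ Bw := by
  refine le_trans ?_ (hp.wt_le hN hB)
  rw [svol, ← List.sum_toFinset _ hp.tch_nodup, hp.tch_toFinset]
  exact sum_le_sum fun v _ => Nat.le_add_right _ _

theorem Out.exc_sum (ho : Out N V E f lab tch) (hh : 1 ≤ N.h) {x : ℕ → ℤ}
    (hx : ∀ v, x v = N.dv E f v) :
    (((tch.map fun v => (N.ex x v).toNat).sum : ℕ) : ℤ) = N.exc V E f := by
  rw [← List.sum_toFinset _ ho.tch_nodup, ho.toPre.tch_toFinset, Net.exc, Nat.cast_sum, lev,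
    sum_filter]
  refine sum_congr rfl fun v hv => ?_
  have := ho.low v hv
  simp only [Net.ex, hx]
  split_ifs <;> omega

theorem lsum_map (g : ℕ → ℕ) (Z : List ℕ) (T : Finset ℕ) :
    lsum (Z.map fun e => (g e, w e)) T = ((Z.filter fun e => decide (g e ∈ T)).map w).sum := by
  simp only [lsum, List.filter_map, List.map_map]; rfl

/-- the pure content of the result -/
theorem Call.res (C : Call N V E w mu K D M k Bw X W0) (ho : Out N V E f lab tch) {x : ℕ}
    (hx : (x : ℤ) = N.exc V E f) :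
    Res N V E w mu K D M Bw f x (upL lab tch (pick N w mu D M lab tch))
      ((levE N lab tch (pick N w mu D M lab tch)).map fun e => (lowE N lab e, w e)) := by
  have hp := ho.toPre
  obtain ⟨h1, h2, h3⟩ := pick_spec C.wf hp C.dead C.deg C.muM C.Mk C.hh
  generalize pick N w mu D M lab tch = j at h1 h2 h3 ⊢
  have eP := upL_toFinset hp h1
  have eZ : (((levE N lab tch j).map fun e => (lowE N lab e, w e)).map Prod.snd).sum =
      N.zedw E w lab j := by
    rw [List.map_map]; exact levE_sum C.wf hp h1 C.dead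
  have c1 : ∀ A B, N.crs E N.cap A B = K * N.crs E w A B := fun A B => by
    rw [crs_congr C.capK, crs_mul]
  have c2 : N.zed E lab j = K * N.zedw E w lab j := by rw [zed_eq, zedw_congr C.capK, zedw_mul]
  have sv := hp.svol_le C.wf C.bd
  refine ⟨upL_nodup hp j, eP ▸ lev_subset j, hp.natAbs_le, fun e he => (hp.supp e he).1, hx,
    fun v hv => hp.sat v (by have := mem_lev.1 ((mem_upL hp h1).1 hv); omega), ?_, ?_, ?_, ?_, ?_,
    ?_, ?_, (svol_filter N _ _).trans sv, ?_⟩
  · have := ho.b_exc_le C.wf h1 h2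
    rw [eP]; omega
  · rw [eP]
    intro T hT
    have := ho.trim C.wf (Or.inl h2) hT
    rw [lsum_map, levE_low_sum C.wf hp h1 C.dead, ← c1, ← c1, mul_assoc, mul_sum]
    refine this.trans (le_of_eq ?_)
    congr 2
    exact sum_congr rfl fun v _ => by rw [Net.zv, zvw_congr C.capK, zvw_mul]
  · have := ho.cut_le C.wf h1 h2
    rw [cut_eq_crs C.wf, c1, c2] at this
    rw [eP, eZ, mul_assoc]; omega
  · have := ho.exc_le C.wf h1 h2
    rw [c2] at this
    rw [eP, eZ]; omega
  · have := ho.exc_le_compl C.wf h1 h2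
    rw [eP]; omega
  · rw [eP, eZ]; exact h3
  · intro p hp' h0
    obtain ⟨e, he, rfl⟩ := List.mem_map.1 hp'
    rw [eP]
    exact lowE_mem C.wf hp he (Nat.pos_of_ne_zero fun h => by
      have := C.dead e h; simp only at h0; omega)
  · rw [List.length_map]; exact (length_levE N lab tch j).trans sv

theorem Call.run_lt (C : Call N V E w mu K D M k Bw X W0) (n : ℕ) (h : (runN N W0 n).W ≠ []) :
    n < N.h * Bw + W0.length := by
  by_contra k
  exact h (runN_out C.wf C.bd C.start (by omega)).1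

/-- **LocalFlow** -/
theorem sp_lf {g : Gl} (C : Call N V E w mu K D M k Bw g.X W0) {fu : ℕ}
    (hfu : N.h * Bw + W0.length < fu) :
    Sp g (lf N w mu D M W0 fu) fun r t =>
      Res N V E w mu K D M Bw r.1.get r.2.1 r.2.2.1 r.2.2.2 ∧
        t ≤ 11 * (N.h + 2) * (Bw + 1) + W0.length := by
  have I := inv_runN C.wf C.start
  refine (sp_runR N W0 hfu C.run_lt (fun n e => ?_) fun n v => ?_).bind ?_
  · by_cases h0 : (runN N W0 n).f e = 0
    · rw [h0]; exact Nat.zero_le _
    · exact ((I n).toPre.natAbs_le e).trans (C.cap_le ((I n).supp e h0).1)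
  · have h1 := dv_le_cvol (N := N) (E := E) (I n).le_cap (I n).neg_le v
    have h2 := neg_cvol_le_dv (N := N) (E := E) (I n).le_cap (I n).neg_le v
    have h3 := C.cvol_le v
    rw [(I n).x_eq]; omega
  rintro ⟨f, x, lab, cur, W, tch⟩ t0 ⟨n, e, hW, rfl, hn⟩
  have J := I n
  rw [← e] at J hW
  have ho : Out N V E f.get lab.get tch := J.out hW
  have hp := ho.toPre
  have hh := C.hh
  have ex := ho.exc_sum (by omega) (x := x.get) J.x_eq
  have sv := hp.svol_le C.wf C.bd
  have lt := length_le_svol N tch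
  refine (sp_sumL _ _ ?_).bind ?_
  · have := ho.b_exc_le C.wf le_rfl (by omega)
    have := C.aX
    change (tch.map fun v => (N.ex x.get v).toNat).sum ≤ _
    omega
  rintro _ t1 ⟨rfl, k1⟩
  refine (sp_pickR N w mu D M lab tch (fun j hj => ?_) fun j hj => ?_).bind ?_
  · rw [upL_sum hp hj]
    exact (sum_le_sum_of_subset (lev_subset j)).trans (C.muM.trans C.MX)
  · rw [levE_sum C.wf hp hj C.dead]
    refine (zedw_le_hi C.wf w j).trans (le_trans ?_ (C.muM.trans C.MX))
    exact (sum_le_sum fun v hv => C.deg v (mem_filter.1 hv).1).trans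
      (sum_le_sum_of_subset (filter_subset _ _))
  rintro _ t2 ⟨rfl, k2⟩
  refine (sp_upR N lab tch _).bind ?_
  rintro _ t3 ⟨rfl, k3⟩
  refine (sp_levR N lab tch _).bind ?_
  rintro _ t4 ⟨rfl, k4⟩
  refine (sp_mapP _ _).bind ?_
  rintro _ t5 ⟨rfl, k5⟩
  refine sp_pure.2 ⟨C.res ho ex, ?_⟩
  have a1 := length_levE N lab.get tch (pick N w mu D M lab.get tch)
  have a2 : N.h * (10 * svol N tch + 9) ≤ N.h * (10 * Bw + 9) :=
    Nat.mul_le_mul_left _ (by omega)
  have a3 : 11 * (N.h + 2) * (Bw + 1) = 11 * (N.h * Bw) + 11 * N.h + 22 * Bw + 22 := by ring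
  have a4 : N.h * (10 * Bw + 9) = 10 * (N.h * Bw) + 9 * N.h := by ring
  change t1 ≤ tch.length + 1 at k1
  omega

end Crest.Agent.N325.Lf
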