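import Crest.Agent.N325.Lf.Cost

/-! Crossing weights `crs`, per-vertex level capacities `zv`, weighted versions. -/

set_option autoImplicit false
open Finset

namespace Crest.Agent.N325.Lf

/-- `g`-weight of the edges between `A` and `B`. -/
def Net.crs (N : Net) (E : Finset ℕ) (g : ℕ → ℕ) (A B : Finset ℕ) : ℕ :=
  ∑ e ∈ E, if (N.src e ∈ A ∧ N.dst e ∈ B) ∨ (N.src e ∈ B ∧ N.dst e ∈ A) then g e else 0

/-- `g`-weight of the edges from `v` (at level `j-1`) up to level `j`. -/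
def Net.zvw (N : Net) (E : Finset ℕ) (g lab : ℕ → ℕ) (j v : ℕ) : ℕ :=
  ∑ e ∈ E, if (N.src e = v ∧ lab (N.dst e) = j ∧ lab v + 1 = j) ∨
    (N.dst e = v ∧ lab (N.src e) = j ∧ lab v + 1 = j) then g e else 0

/-- capacity from `v` (at level `j-1`) up to level `j`. -/
def Net.zv (N : Net) (E : Finset ℕ) (lab : ℕ → ℕ) (j v : ℕ) : ℕ := N.zvw E N.cap lab j v

/-- `g`-weight between levels `j` and `j-1`. -/
def Net.zedw (N : Net) (E : Finset ℕ) (g lab : ℕ → ℕ) (j : ℕ) : ℕ :=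
  ∑ e ∈ E, if (lab (N.src e) = j ∧ lab (N.dst e) + 1 = j) ∨ (lab (N.dst e) = j ∧ lab (N.src e) + 1 = j)
    then g e else 0

/-- `g`-degree of a vertex (a loop counts once). -/
def Net.wdeg (N : Net) (E : Finset ℕ) (g : ℕ → ℕ) (v : ℕ) : ℕ :=
  ∑ e ∈ E, if N.src e = v ∨ N.dst e = v then g e else 0

variable {N : Net} {V E : Finset ℕ}

theorem zed_eq (lab : ℕ → ℕ) (j : ℕ) : N.zed E lab j = N.zedw E N.cap lab j := rfl

theorem cvol_eq (v : ℕ) : N.cvol E v = N.wdeg E N.cap v := rfl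

theorem crs_comm (g : ℕ → ℕ) (A B : Finset ℕ) : N.crs E g A B = N.crs E g B A := by
  unfold Net.crs
  refine sum_congr rfl fun e _ => ?_
  simp only [or_comm]

theorem crs_mul (K : ℕ) (g : ℕ → ℕ) (A B : Finset ℕ) :
    N.crs E (fun e => K * g e) A B = K * N.crs E g A B := by
  unfold Net.crs
  rw [mul_sum]
  refine sum_congr rfl fun e _ => ?_
  split_ifs <;> simp

theorem crs_congr {g g' : ℕ → ℕ} (h : ∀ e ∈ E, g e = g' e) (A B : Finset ℕ) :
    N.crs E g A B = N.crs E g' A B :=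
  sum_congr rfl fun e he => by rw [h e he]

theorem crs_mono {g g' : ℕ → ℕ} (h : ∀ e ∈ E, g e ≤ g' e) {A A' B B' : Finset ℕ} (hA : A ⊆ A')
    (hB : B ⊆ B') : N.crs E g A B ≤ N.crs E g' A' B' := by
  refine sum_le_sum fun e he => ?_
  split_ifs with h1 h2
  · exact h e he
  · exfalso; apply h2
    rcases h1 with h1 | h1
    · exact Or.inl ⟨hA h1.1, hB h1.2⟩
    · exact Or.inr ⟨hB h1.1, hA h1.2⟩
  · exact Nat.zero_le _
  · exact le_rfl

theorem zedw_mul (K : ℕ) (g lab : ℕ → ℕ) (j : ℕ) :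
    N.zedw E (fun e => K * g e) lab j = K * N.zedw E g lab j := by
  unfold Net.zedw
  rw [mul_sum]
  refine sum_congr rfl fun e _ => ?_
  split_ifs <;> simp

theorem zvw_mul (K : ℕ) (g lab : ℕ → ℕ) (j v : ℕ) :
    N.zvw E (fun e => K * g e) lab j v = K * N.zvw E g lab j v := by
  unfold Net.zvw
  rw [mul_sum]
  refine sum_congr rfl fun e _ => ?_
  split_ifs <;> simp

theorem zedw_congr {g g' : ℕ → ℕ} (h : ∀ e ∈ E, g e = g' e) (lab : ℕ → ℕ) (j : ℕ) :
    N.zedw E g lab j = N.zedw E g' lab j :=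
  sum_congr rfl fun e he => by rw [h e he]

theorem zvw_congr {g g' : ℕ → ℕ} (h : ∀ e ∈ E, g e = g' e) (lab : ℕ → ℕ) (j v : ℕ) :
    N.zvw E g lab j v = N.zvw E g' lab j v :=
  sum_congr rfl fun e he => by rw [h e he]

/-- `cut` is the crossing capacity to the complement. -/
theorem cut_eq_crs (hN : N.WF V E) (S : Finset ℕ) : N.cut E S = N.crs E N.cap S (V \ S) := by
  unfold Net.cut Net.crs
  refine sum_congr rfl fun e he => ?_
  have h1 := hN.src_mem e he
  have h2 := hN.dst_mem e he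
  simp only [mem_sdiff, h1, h2, true_and]

/-- sums of `zvw` over a set `T`. -/
theorem sum_zvw (g lab : ℕ → ℕ) (j : ℕ) (T : Finset ℕ) :
    ∑ v ∈ T, N.zvw E g lab j v =
      ∑ e ∈ E, if (N.src e ∈ T ∧ lab (N.dst e) = j ∧ lab (N.src e) + 1 = j) ∨
        (N.dst e ∈ T ∧ lab (N.src e) = j ∧ lab (N.dst e) + 1 = j) then g e else 0 := by
  unfold Net.zvw
  rw [sum_comm]
  refine sum_congr rfl fun e _ => ?_
  by_cases h1 : N.src e ∈ T ∧ lab (N.dst e) = j ∧ lab (N.src e) + 1 = j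
  · rw [if_pos (Or.inl h1), sum_eq_single_of_mem (N.src e) h1.1]
    · rw [if_pos (Or.inl ⟨rfl, h1.2⟩)]
    · intro v _ hv
      rw [if_neg]
      rintro (h | h)
      · exact hv h.1.symm
      · omega
  · by_cases h2 : N.dst e ∈ T ∧ lab (N.src e) = j ∧ lab (N.dst e) + 1 = j
    · rw [if_pos (Or.inr h2), sum_eq_single_of_mem (N.dst e) h2.1]
      · rw [if_pos (Or.inr ⟨rfl, h2.2⟩)]
      · intro v _ hv
        rw [if_neg]
        rintro (h | h)
        · omega
        · exact hv h.1.symm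
    · rw [if_neg (by tauto)]
      refine sum_eq_zero fun v hv => if_neg ?_
      rintro (h | h)
      · obtain ⟨rfl, h⟩ := h; exact h1 ⟨hv, h⟩
      · obtain ⟨rfl, h⟩ := h; exact h2 ⟨hv, h⟩

theorem sum_zvw_univ (hN : N.WF V E) (g lab : ℕ → ℕ) (j : ℕ) :
    ∑ v ∈ V, N.zvw E g lab j v = N.zedw E g lab j := by
  rw [sum_zvw]
  refine sum_congr rfl fun e he => ?_
  simp only [hN.src_mem e he, hN.dst_mem e he, true_and, or_comm]

theorem sum_zv_univ (hN : N.WF V E) (lab : ℕ → ℕ) (j : ℕ) :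
    ∑ v ∈ V, N.zv E lab j v = N.zed E lab j := sum_zvw_univ hN _ lab j

/-- sum of weighted degrees over a set dominates every weight of edges meeting the set. -/
theorem le_sum_wdeg (g : ℕ → ℕ) (T : Finset ℕ) (p : ℕ → Prop) [DecidablePred p]
    (hp : ∀ e ∈ E, p e → N.src e ∈ T ∨ N.dst e ∈ T) :
    ∑ e ∈ E, (if p e then g e else 0) ≤ ∑ v ∈ T, N.wdeg E g v := by
  unfold Net.wdeg
  rw [sum_comm]
  refine sum_le_sum fun e he => ?_
  split_ifs with h
  · rcases hp e he h with h1 | h1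
    · exact le_trans (by simp) (single_le_sum
        (f := fun v => if N.src e = v ∨ N.dst e = v then g e else 0) (fun _ _ => Nat.zero_le _) h1)
    · exact le_trans (by simp) (single_le_sum
        (f := fun v => if N.src e = v ∨ N.dst e = v then g e else 0) (fun _ _ => Nat.zero_le _) h1)
  · exact Nat.zero_le _

end Crest.Agent.N325.Lf
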