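import Crest.Agent.N325.Lf.Inv

/-! Step count of the push-relabel machine: a potential that drops by one per step. -/

set_option autoImplicit false
open Finset

namespace Crest.Agent.N325.Lf

variable {N : Net} {V E : Finset ℕ}

theorem sum_dv_sub (S : Finset ℕ) (f : ℕ → ℤ) :
    ∑ v ∈ S, N.dv E f v =
      ∑ e ∈ E, ((if N.dst e ∈ S then f e else 0) - (if N.src e ∈ S then f e else 0)) := by
  unfold Net.dv
  rw [sum_comm]
  refine sum_congr rfl fun e _ => ?_
  rw [sum_sub_distrib, sum_ite_eq, sum_ite_eq]

theorem sum_dv (hN : N.WF V E) (f : ℕ → ℤ) : ∑ v ∈ V, N.dv E f v = 0 := by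
  rw [sum_dv_sub]
  refine sum_eq_zero fun e he => ?_
  rw [if_pos (hN.dst_mem e he), if_pos (hN.src_mem e he)]; ring

theorem dv_le_cvol {f : ℕ → ℤ} (h1 : ∀ e, f e ≤ N.cap e) (h2 : ∀ e, -(N.cap e : ℤ) ≤ f e) (v : ℕ) :
    N.dv E f v ≤ N.cvol E v := by
  unfold Net.dv Net.cvol
  push_cast
  refine sum_le_sum fun e _ => ?_
  have := h1 e; have := h2 e
  by_cases a : N.src e = v <;> by_cases b : N.dst e = v <;> simp [a, b] <;> omega

theorem neg_cvol_le_dv {f : ℕ → ℤ} (h1 : ∀ e, f e ≤ N.cap e) (h2 : ∀ e, -(N.cap e : ℤ) ≤ f e)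
    (v : ℕ) : -(N.cvol E v : ℤ) ≤ N.dv E f v := by
  unfold Net.dv Net.cvol
  push_cast
  rw [← sum_neg_distrib]
  refine sum_le_sum fun e _ => ?_
  have := h1 e; have := h2 e
  by_cases a : N.src e = v <;> by_cases b : N.dst e = v <;> simp [a, b] <;> omega

/-- touched vertices have saturated sinks, so their sink capacity is at most the supply. -/
theorem Pre.b_le {f : ℕ → ℤ} {lab : ℕ → ℕ} {tch : List ℕ} (hN : N.WF V E)
    (hp : Pre N V E f lab tch) : ∑ v ∈ lev V lab 1, N.b v ≤ ∑ v ∈ V, N.a v := by
  have h1 : ((∑ v ∈ lev V lab 1, N.b v : ℕ) : ℤ) ≤ ∑ v ∈ lev V lab 1, ((N.a v : ℤ) + N.dv E f v) := by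
    push_cast
    refine sum_le_sum fun v hv => hp.sat v ?_
    have := (mem_filter.1 hv).2; omega
  have h2 : ∑ v ∈ lev V lab 1, ((N.a v : ℤ) + N.dv E f v) ≤ ∑ v ∈ V, ((N.a v : ℤ) + N.dv E f v) :=
    sum_le_sum_of_subset_of_nonneg (filter_subset _ _) fun v hv _ => hp.nonneg v hv
  rw [sum_add_distrib (s := V), sum_dv hN] at h2
  have h3 : ((∑ v ∈ V, N.a v : ℕ) : ℤ) = ∑ v ∈ V, (N.a v : ℤ) := by push_cast; rfl
  omega

theorem Pre.tch_toFinset {f : ℕ → ℤ} {lab : ℕ → ℕ} {tch : List ℕ} (hp : Pre N V E f lab tch) :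
    tch.toFinset = lev V lab 1 := by
  ext v
  simp only [List.mem_toFinset, lev, mem_filter]
  constructor
  · intro h; exact ⟨hp.tch_mem v h, (hp.tch_iff v).1 h⟩
  · intro h; exact (hp.tch_iff v).2 h.2

/-- work already paid by relabels. -/
def posP (N : Net) (V E : Finset ℕ) (s : St) : ℕ := ∑ v ∈ V, s.lab v * N.wt E v

/-- stored work. -/
def negP (N : Net) (V : Finset ℕ) (s : St) : ℕ :=
  s.W.length + ∑ v ∈ V, (2 * ((N.ex s.x v).toNat * s.lab v) + (s.cur v).length)

theorem sum_upd {g g' : ℕ → ℕ} {v : ℕ} (hv : v ∈ V) (h : ∀ w, w ≠ v → g' w = g w) :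
    ∑ w ∈ V, g' w + g v = ∑ w ∈ V, g w + g' v := by
  rw [← add_sum_erase _ _ hv, ← add_sum_erase V g hv]
  have : ∑ w ∈ V.erase v, g' w = ∑ w ∈ V.erase v, g w :=
    sum_congr rfl fun w hw => h w (ne_of_mem_erase hw)
  omega

theorem sum_upd2 {g g' : ℕ → ℕ} {v u : ℕ} (hv : v ∈ V) (hu : u ∈ V) (huv : u ≠ v)
    (h : ∀ w, w ≠ v → w ≠ u → g' w = g w) :
    ∑ w ∈ V, g' w + (g v + g u) = ∑ w ∈ V, g w + (g' v + g' u) := by
  have hu' : u ∈ V.erase v := mem_erase.2 ⟨huv, hu⟩
  rw [← add_sum_erase _ _ hv, ← add_sum_erase V g hv, ← add_sum_erase _ _ hu',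
    ← add_sum_erase _ g hu']
  have : ∑ w ∈ (V.erase v).erase u, g' w = ∑ w ∈ (V.erase v).erase u, g w :=
    sum_congr rfl fun w hw =>
      h w (ne_of_mem_erase (mem_of_mem_erase hw)) (ne_of_mem_erase hw)
  omega

theorem pot_step' (hN : N.WF V E) {s : St} (hs : Inv N V E s) (hW : s.W ≠ []) :
    posP N V E s + negP N V (step N s) + 1 ≤ posP N V E (step N s) + negP N V s := by
  unfold step
  split
  · rename_i h; exact absurd h hW
  · rename_i v W' hW'
    have hvW : v ∈ s.W := by rw [hW']; exact List.mem_cons_self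
    have hv := hs.W_mem v hvW
    split_ifs with h
    · simp only [posP, negP, hW', List.length_cons]; omega
    · push Not at h
      split
      · rename_i hc
        have h1 := sum_upd (V := V) (g := fun w => s.lab w * N.wt E w)
          (g' := fun w => (relabel N s v).lab w * N.wt E w) hv
          (fun w hw => by simp only [relabel, Function.update_of_ne hw])
        have h2 := sum_upd (V := V)
          (g := fun w => 2 * ((N.ex s.x w).toNat * s.lab w) + (s.cur w).length)
          (g' := fun w => 2 * ((N.ex (relabel N s v).x w).toNat * (relabel N s v).lab w) +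
            ((relabel N s v).cur w).length) hv
          (fun w hw => by simp only [relabel, Function.update_of_ne hw])
        have h3 : (N.ex s.x v).toNat ≤ N.a v + N.cvol E v := by
          have := dv_le_cvol (E := E) hs.le_cap hs.neg_le v
          have := hs.x_eq v
          unfold Net.ex; omega
        have e1 : (relabel N s v).lab v = s.lab v + 1 := by simp [relabel]
        have e2 : (relabel N s v).cur v = N.adj v := by simp [relabel]
        have e3 : (relabel N s v).x = s.x := rfl
        have e4 : (relabel N s v).W = s.W := rfl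
        simp only [e1, e2, e3, hc, List.length_nil] at h1 h2
        simp only [posP, negP, e3, e4]
        rw [Nat.succ_mul] at h1
        rw [Nat.mul_succ] at h2
        unfold Net.wt at h1 ⊢
        omega
      · rename_i e es hc
        split_ifs with h2
        · have he : e ∈ s.cur v := by rw [hc]; exact List.mem_cons_self
          have hadj := hs.cur_sub v e he
          have hcap : 0 < N.cap e := cap_pos_of_res hs.toPre h2.2
          have hE := hN.live v hv e hadj hcap
          have huv : N.oth v e ≠ v := by intro h'; rw [h'] at h2; omega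
          have huV : N.oth v e ∈ V := by
            unfold Net.oth; split_ifs
            · exact hN.dst_mem e hE
            · exact hN.src_mem e hE
          set d := min (N.ex s.x v) (N.res s.f v e) with hd
          have hd0 : 0 < d := lt_min h.1 h2.2
          have hd1 : d ≤ N.ex s.x v := min_le_left _ _
          have h3 := sum_upd2 (V := V)
            (g := fun w => 2 * ((N.ex s.x w).toNat * s.lab w) + (s.cur w).length)
            (g' := fun w => 2 * ((N.ex (push N s v e d).x w).toNat * s.lab w) +
              (s.cur w).length) hv huV huv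
            (fun w hw hw' => by
              simp only [push, Net.ex, Function.update_of_ne hw, Function.update_of_ne hw'])
          have e1 : N.ex (push N s v e d).x v = N.ex s.x v - d := by
            simp only [push, Net.ex, Function.update_of_ne huv.symm, Function.update_self]; ring
          have e2 : N.ex (push N s v e d).x (N.oth v e) = N.ex s.x (N.oth v e) + d := by
            simp only [push, Net.ex, Function.update_self]; ring
          have e3 : (push N s v e d).lab = s.lab := rfl
          have e4 : (push N s v e d).cur = s.cur := rfl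
          have e5 : (push N s v e d).W = N.oth v e :: s.W := rfl
          simp only [e1, e2] at h3
          simp only [posP, negP, e3, e4, e5, List.length_cons]
          obtain ⟨D, hD⟩ : ∃ D : ℕ, d = D := ⟨d.toNat, by omega⟩
          obtain ⟨A, hA⟩ : ∃ A : ℕ, (N.ex s.x v - d).toNat = A := ⟨_, rfl⟩
          have f1 : (N.ex s.x v).toNat = A + D := by omega
          have f2 : (N.ex s.x (N.oth v e) + d).toNat ≤ (N.ex s.x (N.oth v e)).toNat + D := by omega
          have f3 := Nat.mul_le_mul_right (s.lab (N.oth v e)) f2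
          rw [hA, f1, h2.1] at h3
          have f4 : 1 ≤ D := by omega
          have f5 : (A + D) * (s.lab (N.oth v e) + 1) =
              A * (s.lab (N.oth v e) + 1) + D * s.lab (N.oth v e) + D := by ring
          rw [add_mul] at f3
          omega
        · have h3 := sum_upd (V := V)
            (g := fun w => 2 * ((N.ex s.x w).toNat * s.lab w) + (s.cur w).length)
            (g' := fun w => 2 * ((N.ex s.x w).toNat * s.lab w) +
              (Function.update s.cur v es w).length) hv
            (fun w hw => by simp only [Function.update_of_ne hw])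
          simp only [Function.update_self, hc, List.length_cons] at h3
          simp only [posP, negP]
          omega

theorem posP_le {s : St} (hs : Inv N V E s) :
    posP N V E s ≤ N.h * ∑ v ∈ lev V s.lab 1, N.wt E v := by
  unfold posP lev
  rw [mul_sum, sum_filter]
  refine sum_le_sum fun v _ => ?_
  split_ifs with h
  · exact Nat.mul_le_mul_right _ (hs.lab_le v)
  · have : s.lab v = 0 := by omega
    simp [this]

/-- `M` bounds the weight of every vertex set whose sink capacity is at most the supply. -/
def Net.Bd (N : Net) (V E : Finset ℕ) (M : ℕ) : Prop :=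
  ∀ T ⊆ V, ∑ v ∈ T, N.b v ≤ ∑ v ∈ V, N.a v → ∑ v ∈ T, N.wt E v ≤ M

/-- global bound: always available. -/
theorem bd_global (N : Net) (V E : Finset ℕ) : N.Bd V E (∑ v ∈ V, N.wt E v) :=
  fun _ hT _ => sum_le_sum_of_subset hT

/-- local bound when sinks dominate degrees and capacities. -/
theorem bd_local {κ : ℕ} (h : ∀ v ∈ V, 1 + (N.adj v).length + 2 * N.cvol E v ≤ κ * N.b v) :
    N.Bd V E ((κ + 2) * ∑ v ∈ V, N.a v) := by
  intro T hT hb
  have h1 : ∑ v ∈ T, N.wt E v ≤ ∑ v ∈ T, (κ * N.b v + 2 * N.a v) :=
    sum_le_sum fun v hv => by have := h v (hT hv); unfold Net.wt; omega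
  rw [sum_add_distrib, ← mul_sum, ← mul_sum] at h1
  have h2 : ∑ v ∈ T, N.a v ≤ ∑ v ∈ V, N.a v := sum_le_sum_of_subset hT
  have h3 := Nat.mul_le_mul_left κ hb
  rw [add_mul]; omega

theorem Pre.wt_le {f : ℕ → ℤ} {lab : ℕ → ℕ} {tch : List ℕ} (hN : N.WF V E)
    (hp : Pre N V E f lab tch) {M : ℕ} (hM : N.Bd V E M) : ∑ v ∈ lev V lab 1, N.wt E v ≤ M :=
  hM _ (filter_subset _ _) (hp.b_le hN)

/-- the decreasing potential. -/
def pot (N : Net) (V E : Finset ℕ) (M : ℕ) (s : St) : ℕ := N.h * M + negP N V s - posP N V E s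

theorem posP_le_M (hN : N.WF V E) {s : St} (hs : Inv N V E s) {M : ℕ} (hM : N.Bd V E M) :
    posP N V E s ≤ N.h * M :=
  (posP_le hs).trans (Nat.mul_le_mul_left _ (hs.toPre.wt_le hN hM))

theorem pot_step (hN : N.WF V E) {M : ℕ} (hM : N.Bd V E M) {s : St} (hs : Inv N V E s)
    (hW : s.W ≠ []) : pot N V E M (step N s) + 1 ≤ pot N V E M s := by
  have h1 := pot_step' hN hs hW
  have h2 := posP_le_M hN hs hM
  have h3 := posP_le_M hN (inv_step hN hs) hM
  unfold pot; omega

theorem pot_init (M : ℕ) (W0 : List ℕ) : pot N V E M (init W0) = N.h * M + W0.length := by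
  simp [pot, negP, posP, init]

theorem step_nil {s : St} (h : s.W = []) : step N s = s := by
  unfold step; rw [h]

theorem iter_done (hN : N.WF V E) {M : ℕ} (hM : N.Bd V E M) (n : ℕ) :
    ∀ {s : St}, Inv N V E s → pot N V E M s ≤ n → ((step N)^[n] s).W = [] := by
  induction n with
  | zero =>
    intro s hs h
    by_contra hW
    have := pot_step hN hM hs hW; omega
  | succ n ih =>
    intro s hs h
    by_cases hW : s.W = []
    · rw [Function.iterate_fixed (step_nil hW)]; exact hW
    · rw [Function.iterate_succ_apply]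
      have := pot_step hN hM hs hW
      exact ih (inv_step hN hs) (by omega)

/-- main theorem: after `h * M + |W0|` steps the machine has stopped with a valid output. -/
theorem runN_out (hN : N.WF V E) {M : ℕ} (hM : N.Bd V E M) {W0 : List ℕ} (hS : Start N V W0)
    {n : ℕ} (hn : N.h * M + W0.length ≤ n) :
    (runN N W0 n).W = [] ∧
      Out N V E (runN N W0 n).f (runN N W0 n).lab (runN N W0 n).tch := by
  have h : (runN N W0 n).W = [] :=
    iter_done hN hM n (inv_init hN hS) (by rw [pot_init]; exact hn)
  exact ⟨h, (inv_runN hN hS n).out h⟩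

end Crest.Agent.N325.Lf
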