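import Crest.Agent.N325.Lf.Cut0

/-! Level cuts of a labelled preflow. -/

set_option autoImplicit false
open Finset

namespace Crest.Agent.N325.Lf

variable {N : Net} {V E : Finset ℕ} {f : ℕ → ℤ} {lab : ℕ → ℕ} {tch : List ℕ}

theorem mem_lev {j v : ℕ} : v ∈ lev V lab j ↔ v ∈ V ∧ j ≤ lab v := mem_filter

theorem lev_subset (j : ℕ) : lev V lab j ⊆ V := filter_subset _ _

theorem lev_anti {i j : ℕ} (h : i ≤ j) : lev V lab j ⊆ lev V lab i := fun _ hv =>
  mem_lev.2 ⟨(mem_lev.1 hv).1, h.trans (mem_lev.1 hv).2⟩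

theorem exc_nonneg (f : ℕ → ℤ) : 0 ≤ N.exc V E f := sum_nonneg fun _ _ => le_max_right _ _

/-- all excess sits in every level set `1 ≤ j ≤ h`. -/
theorem Out.exc_eq (ho : Out N V E f lab tch) {j : ℕ} (h1 : 1 ≤ j) (hj : j ≤ N.h) :
    N.exc V E f = ∑ v ∈ lev V lab j, ((N.a v : ℤ) + N.dv E f v - N.b v) := by
  unfold Net.exc lev
  rw [sum_filter]
  refine sum_congr rfl fun v hv => ?_
  split_ifs with h
  · have := ho.sat v (by omega); exact max_eq_left (by omega)
  · have := ho.low v hv (by omega); exact max_eq_right (by omega)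

theorem Out.exc_eq' (ho : Out N V E f lab tch) {j : ℕ} (h1 : 1 ≤ j) (hj : j ≤ N.h) :
    ((∑ v ∈ lev V lab j, N.b v : ℕ) : ℤ) + N.exc V E f =
      (∑ v ∈ lev V lab j, N.a v : ℕ) + ∑ v ∈ lev V lab j, N.dv E f v := by
  rw [ho.exc_eq h1 hj, sum_sub_distrib, sum_add_distrib]
  push_cast; ring

/-- positive excess forces a vertex at the top level. -/
theorem Out.lev_nonempty (ho : Out N V E f lab tch) (h : 0 < N.exc V E f) :
    (lev V lab N.h).Nonempty := by
  by_contra hne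
  rw [not_nonempty_iff_eq_empty] at hne
  have : N.exc V E f = 0 := by
    refine sum_eq_zero fun v hv => ?_
    have hl : lab v < N.h := by
      by_contra h'
      have : v ∈ lev V lab N.h := mem_lev.2 ⟨hv, by omega⟩
      rw [hne] at this; simp at this
    have := ho.low v hv hl
    exact max_eq_right (by omega)
  omega

theorem Pre.cut_add_dv (hN : N.WF V E) (hp : Pre N V E f lab tch) (j : ℕ) :
    (N.cut E (lev V lab j) : ℤ) + ∑ v ∈ lev V lab j, N.dv E f v ≤ 2 * N.zed E lab j := by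
  rw [sum_dv_sub]
  unfold Net.cut Net.zed
  push_cast
  rw [← sum_add_distrib, mul_sum]
  refine sum_le_sum fun e he => ?_
  have h1 := hp.le_cap e
  have h2 := hp.neg_le e
  have h3 := hp.fwd e he
  have h4 := hp.bwd e he
  simp only [mem_lev, hN.src_mem e he, hN.dst_mem e he, true_and]
  split_ifs <;> omega

theorem Pre.dv_le_zed (hN : N.WF V E) (hp : Pre N V E f lab tch) (j : ℕ) :
    ∑ v ∈ lev V lab j, N.dv E f v ≤ N.zed E lab j := by
  rw [sum_dv_sub]
  unfold Net.zed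
  push_cast
  refine sum_le_sum fun e he => ?_
  have h1 := hp.le_cap e
  have h2 := hp.neg_le e
  have h3 := hp.fwd e he
  have h4 := hp.bwd e he
  simp only [mem_lev, hN.src_mem e he, hN.dst_mem e he, true_and]
  split_ifs <;> omega

/-- LEVEL CUT. -/
theorem Out.cut_le (hN : N.WF V E) (ho : Out N V E f lab tch) {j : ℕ} (h1 : 1 ≤ j) (hj : j ≤ N.h) :
    (N.cut E (lev V lab j) : ℤ) + (∑ v ∈ lev V lab j, N.b v : ℕ) + N.exc V E f ≤
      (∑ v ∈ lev V lab j, N.a v : ℕ) + 2 * N.zed E lab j := by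
  have := ho.exc_eq' h1 hj
  have := ho.toPre.cut_add_dv hN j
  omega

/-- level cut for any level `j ≥ 1`, without the excess term (natural numbers). -/
theorem Pre.cut_le (hN : N.WF V E) (hp : Pre N V E f lab tch) {j : ℕ} (h1 : 1 ≤ j) :
    N.cut E (lev V lab j) + ∑ v ∈ lev V lab j, N.b v ≤
      ∑ v ∈ lev V lab j, N.a v + 2 * N.zed E lab j := by
  have h2 := hp.cut_add_dv hN j
  have h3 : ∑ v ∈ lev V lab j, (N.b v : ℤ) ≤ ∑ v ∈ lev V lab j, ((N.a v : ℤ) + N.dv E f v) :=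
    sum_le_sum fun v hv => hp.sat v (by have := (mem_lev.1 hv).2; omega)
  rw [sum_add_distrib] at h3
  zify; omega

/-- the excess has to come from the supply of the level set or from the level edges. -/
theorem Out.exc_le (hN : N.WF V E) (ho : Out N V E f lab tch) {j : ℕ} (h1 : 1 ≤ j) (hj : j ≤ N.h) :
    ((∑ v ∈ lev V lab j, N.b v : ℕ) : ℤ) + N.exc V E f ≤
      (∑ v ∈ lev V lab j, N.a v : ℕ) + N.zed E lab j := by
  have := ho.exc_eq' h1 hj
  have := ho.toPre.dv_le_zed hN j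
  omega

/-- sinks of a level set plus the excess are at most the total supply. -/
theorem Out.b_exc_le (hN : N.WF V E) (ho : Out N V E f lab tch) {j : ℕ} (h1 : 1 ≤ j)
    (hj : j ≤ N.h) :
    ((∑ v ∈ lev V lab j, N.b v : ℕ) : ℤ) + N.exc V E f ≤ (∑ v ∈ V, N.a v : ℕ) := by
  have h2 := ho.exc_eq' h1 hj
  have h3 : ∑ v ∈ lev V lab j, ((N.a v : ℤ) + N.dv E f v) ≤ ∑ v ∈ V, ((N.a v : ℤ) + N.dv E f v) :=
    sum_le_sum_of_subset_of_nonneg (lev_subset j) fun v hv _ => ho.nonneg v hv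
  rw [sum_add_distrib, sum_add_distrib, sum_dv hN] at h3
  push_cast at h2 ⊢; omega

/-- sinks of any level set `j ≥ 1` are at most the total supply. -/
theorem Pre.b_lev_le (hN : N.WF V E) (hp : Pre N V E f lab tch) {j : ℕ} (h1 : 1 ≤ j) :
    ∑ v ∈ lev V lab j, N.b v ≤ ∑ v ∈ V, N.a v :=
  (sum_le_sum_of_subset (lev_anti h1)).trans (hp.b_le hN)

/-- free sink capacity outside a level set is at least the excess when supply ≤ sinks. -/
theorem Out.exc_le_compl (hN : N.WF V E) (ho : Out N V E f lab tch) {j : ℕ} (h1 : 1 ≤ j)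
    (hj : j ≤ N.h) :
    N.exc V E f + (∑ v ∈ V, N.b v : ℕ) ≤
      (∑ v ∈ V \ lev V lab j, N.b v : ℕ) + (∑ v ∈ V, N.a v : ℕ) := by
  have h2 := ho.b_exc_le hN h1 hj
  have h3 := sum_sdiff (f := N.b) (lev_subset (V := V) (lab := lab) j)
  omega

theorem Out.low_of (ho : Out N V E f lab tch) {j : ℕ} (hj : j ≤ N.h ∨ N.exc V E f = 0) {v : ℕ}
    (hv : v ∈ V \ lev V lab j) : (N.a v : ℤ) + N.dv E f v ≤ N.b v := by
  obtain ⟨hV, hn⟩ := mem_sdiff.1 hv
  rcases hj with hj | hj
  · refine ho.low v hV ?_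
    by_contra h
    exact hn (mem_lev.2 ⟨hV, by omega⟩)
  · have := (sum_eq_zero_iff_of_nonneg (fun _ _ => le_max_right _ _)).1 hj v hV
    have h2 := le_max_left ((N.a v : ℤ) + N.dv E f v - N.b v) 0
    omega

/-- TRIMMING inequality. -/
theorem Out.trim (hN : N.WF V E) (ho : Out N V E f lab tch) {j : ℕ}
    (hj : j ≤ N.h ∨ N.exc V E f = 0) {T : Finset ℕ} (hT : T ⊆ V \ lev V lab j) :
    ∑ v ∈ T, N.a v + N.crs E N.cap T (lev V lab j) ≤
      ∑ v ∈ T, N.b v + N.crs E N.cap T ((V \ lev V lab j) \ T) + 2 * ∑ v ∈ T, N.zv E lab j v := by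
  have h1 : ∑ v ∈ T, ((N.a v : ℤ) + N.dv E f v) ≤ ∑ v ∈ T, (N.b v : ℤ) :=
    sum_le_sum fun v hv => ho.low_of hj (hT hv)
  rw [sum_add_distrib, sum_dv_sub] at h1
  have h2 : (N.crs E N.cap T (lev V lab j) : ℤ) ≤
      ∑ e ∈ E, ((if N.dst e ∈ T then f e else 0) - (if N.src e ∈ T then f e else 0)) +
        N.crs E N.cap T ((V \ lev V lab j) \ T) + 2 * (∑ v ∈ T, N.zv E lab j v : ℕ) := by
    unfold Net.zv
    rw [sum_zvw]
    unfold Net.crs
    push_cast
    rw [mul_sum, ← sum_add_distrib, ← sum_add_distrib]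
    refine sum_le_sum fun e he => ?_
    have h1 := ho.le_cap e
    have h2 := ho.neg_le e
    have h3 := ho.fwd e he
    have h4 := ho.bwd e he
    have h5 : N.src e ∈ T → lab (N.src e) < j := fun h => by
      have := mem_sdiff.1 (hT h); rw [mem_lev] at this
      by_contra h'; exact this.2 ⟨this.1, by omega⟩
    have h6 : N.dst e ∈ T → lab (N.dst e) < j := fun h => by
      have := mem_sdiff.1 (hT h); rw [mem_lev] at this
      by_contra h'; exact this.2 ⟨this.1, by omega⟩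
    simp only [mem_sdiff, mem_lev, hN.src_mem e he, hN.dst_mem e he, true_and]
    by_cases a : N.src e ∈ T <;> by_cases b : N.dst e ∈ T <;>
      simp only [a, b, true_and, and_true, false_and, and_false, not_true, not_false_iff,
        or_false, false_or, or_self, if_true, if_false, forall_true_left] at h5 h6 ⊢ <;>
      (try split_ifs) <;> omega
  zify at h2 ⊢
  omega

theorem zedw_le_hi (hN : N.WF V E) (g : ℕ → ℕ) (j : ℕ) :
    N.zedw E g lab j ≤ ∑ v ∈ V.filter (fun v => lab v = j), N.wdeg E g v := by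
  refine le_sum_wdeg g _ _ fun e he h => ?_
  simp only [mem_filter, hN.src_mem e he, hN.dst_mem e he, true_and]
  omega

theorem zedw_le_lo (hN : N.WF V E) (g : ℕ → ℕ) (j : ℕ) :
    N.zedw E g lab j ≤ ∑ v ∈ V.filter (fun v => lab v + 1 = j), N.wdeg E g v := by
  refine le_sum_wdeg g _ _ fun e he h => ?_
  simp only [mem_filter, hN.src_mem e he, hN.dst_mem e he, true_and]
  omega

/-- every edge is a level edge for at most one level. -/
theorem sum_zedw_le (hN : N.WF V E) (g : ℕ → ℕ) (h : ℕ) :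
    ∑ j ∈ Icc 1 h, N.zedw E g lab j ≤ ∑ v ∈ lev V lab 1, N.wdeg E g v := by
  refine (sum_le_sum fun j _ => zedw_le_hi hN g j).trans ?_
  rw [← sum_biUnion]
  · refine sum_le_sum_of_subset fun v hv => ?_
    simp only [mem_biUnion, mem_Icc, mem_filter] at hv
    obtain ⟨j, hj, hv, hl⟩ := hv
    exact mem_lev.2 ⟨hv, by omega⟩
  · intro i _ j _ hij
    rw [Function.onFun, disjoint_filter]
    intro v _ h1 h2; exact hij (h1.symm.trans h2)

/-- averaging: some level has few level edges. -/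
theorem exists_level (hN : N.WF V E) (g : ℕ → ℕ) {h : ℕ} (hh : 1 ≤ h) :
    ∃ j, 1 ≤ j ∧ j ≤ h ∧ h * N.zedw E g lab j ≤ ∑ v ∈ lev V lab 1, N.wdeg E g v := by
  obtain ⟨j, hj, hmin⟩ := exists_min_image (Icc 1 h) (fun j => N.zedw E g lab j)
    ⟨1, mem_Icc.2 ⟨le_rfl, hh⟩⟩
  refine ⟨j, (mem_Icc.1 hj).1, (mem_Icc.1 hj).2, le_trans ?_ (sum_zedw_le hN g h)⟩
  have := card_nsmul_le_sum (Icc 1 h) (fun j => N.zedw E g lab j) _ hmin
  simpa using this

end Crest.Agent.N325.Lf
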