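import Mathlib

/-! Bounded-height push-relabel (LocalFlow) as a pure step machine on natural-number ids. -/

set_option autoImplicit false
open Finset

namespace Crest.Agent.N325.Lf

/-- A local-flow instance: adjacency lists of edge ids, end points, undirected capacities,
supplies `a`, sink capacities `b`, height bound `h`. -/
structure Net where
  adj : ℕ → List ℕ
  src : ℕ → ℕ
  dst : ℕ → ℕ
  cap : ℕ → ℕ
  a : ℕ → ℕ
  b : ℕ → ℕ
  h : ℕ

/-- Well-formedness on a vertex set `V` and an edge set `E`; dead entries (`cap = 0`) and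
entries that are no longer incident are allowed in the adjacency lists. -/
structure Net.WF (N : Net) (V E : Finset ℕ) : Prop where
  src_mem : ∀ e ∈ E, N.src e ∈ V
  dst_mem : ∀ e ∈ E, N.dst e ∈ V
  live : ∀ v ∈ V, ∀ e ∈ N.adj v, 0 < N.cap e → e ∈ E
  full : ∀ e ∈ E, 0 < N.cap e → e ∈ N.adj (N.src e) ∧ e ∈ N.adj (N.dst e)
  nodup : ∀ v ∈ V, (N.adj v).Nodup

/-- net inflow of `f` at `v`. -/
def Net.dv (N : Net) (E : Finset ℕ) (f : ℕ → ℤ) (v : ℕ) : ℤ :=
  ∑ e ∈ E, ((if N.dst e = v then f e else 0) - (if N.src e = v then f e else 0))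

/-- capacity volume of a vertex (a loop counts once). -/
def Net.cvol (N : Net) (E : Finset ℕ) (v : ℕ) : ℕ :=
  ∑ e ∈ E, if N.src e = v ∨ N.dst e = v then N.cap e else 0

/-- capacity of the edges with exactly one end in `S`. -/
def Net.cut (N : Net) (E : Finset ℕ) (S : Finset ℕ) : ℕ :=
  ∑ e ∈ E, if (N.src e ∈ S ∧ N.dst e ∉ S) ∨ (N.src e ∉ S ∧ N.dst e ∈ S) then N.cap e else 0

/-- machine state: flow, stored net inflow, labels, current arcs, work list, touched list. -/
structure St where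
  f : ℕ → ℤ
  x : ℕ → ℤ
  lab : ℕ → ℕ
  cur : ℕ → List ℕ
  W : List ℕ
  tch : List ℕ

def init (W0 : List ℕ) : St := ⟨fun _ => 0, fun _ => 0, fun _ => 0, fun _ => [], W0, []⟩

/-- the other end of `e` seen from `v`. -/
def Net.oth (N : Net) (v e : ℕ) : ℕ := if N.src e = v then N.dst e else N.src e

/-- residual capacity of `e` leaving `v`. -/
def Net.res (N : Net) (f : ℕ → ℤ) (v e : ℕ) : ℤ :=
  if N.src e = v then (N.cap e : ℤ) - f e else if N.dst e = v then (N.cap e : ℤ) + f e else 0

/-- excess (may be negative: free sink capacity). -/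
def Net.ex (N : Net) (x : ℕ → ℤ) (v : ℕ) : ℤ := (N.a v : ℤ) + x v - N.b v

def relabel (N : Net) (s : St) (v : ℕ) : St :=
  { s with lab := Function.update s.lab v (s.lab v + 1)
           cur := Function.update s.cur v (N.adj v)
           tch := if s.lab v = 0 then v :: s.tch else s.tch }

def push (N : Net) (s : St) (v e : ℕ) (d : ℤ) : St :=
  { s with f := Function.update s.f e (if N.src e = v then s.f e + d else s.f e - d)
           x := Function.update (Function.update s.x v (s.x v - d)) (N.oth v e) (s.x (N.oth v e) + d)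
           W := N.oth v e :: s.W }

/-- one step of the machine (identity when the work list is empty). -/
def step (N : Net) (s : St) : St :=
  match s.W with
  | [] => s
  | v :: W' =>
    if N.ex s.x v ≤ 0 ∨ N.h ≤ s.lab v then { s with W := W' }
    else
      match s.cur v with
      | [] => relabel N s v
      | e :: es =>
        if s.lab v = s.lab (N.oth v e) + 1 ∧ 0 < N.res s.f v e then
          push N s v e (min (N.ex s.x v) (N.res s.f v e))
        else { s with cur := Function.update s.cur v es }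

/-- state after `n` steps. -/
def runN (N : Net) (W0 : List ℕ) (n : ℕ) : St := (step N)^[n] (init W0)

/-- admissible start list. -/
structure Start (N : Net) (V : Finset ℕ) (W0 : List ℕ) : Prop where
  mem : ∀ v ∈ W0, v ∈ V
  act : ∀ v ∈ V, N.b v < N.a v → v ∈ W0

/-- labelled preflow: what holds in every reachable state. -/
structure Pre (N : Net) (V E : Finset ℕ) (f : ℕ → ℤ) (lab : ℕ → ℕ) (tch : List ℕ) : Prop where
  le_cap : ∀ e, f e ≤ N.cap e
  neg_le : ∀ e, -(N.cap e : ℤ) ≤ f e
  supp : ∀ e, f e ≠ 0 → e ∈ E ∧ (0 < lab (N.src e) ∨ 0 < lab (N.dst e))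
  nonneg : ∀ v ∈ V, 0 ≤ (N.a v : ℤ) + N.dv E f v
  sat : ∀ v, 0 < lab v → (N.b v : ℤ) ≤ N.a v + N.dv E f v
  fwd : ∀ e ∈ E, f e < N.cap e → lab (N.src e) ≤ lab (N.dst e) + 1
  bwd : ∀ e ∈ E, -(N.cap e : ℤ) < f e → lab (N.dst e) ≤ lab (N.src e) + 1
  lab_le : ∀ v, lab v ≤ N.h
  tch_nodup : tch.Nodup
  tch_iff : ∀ v, v ∈ tch ↔ 0 < lab v
  tch_mem : ∀ v ∈ tch, v ∈ V

/-- final output: in addition no excess below the top level. -/
structure Out (N : Net) (V E : Finset ℕ) (f : ℕ → ℤ) (lab : ℕ → ℕ) (tch : List ℕ) : Prop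
    extends Pre N V E f lab tch where
  low : ∀ v ∈ V, lab v < N.h → (N.a v : ℤ) + N.dv E f v ≤ N.b v

/-- total unrouted excess. -/
def Net.exc (N : Net) (V E : Finset ℕ) (f : ℕ → ℤ) : ℤ :=
  ∑ v ∈ V, max ((N.a v : ℤ) + N.dv E f v - N.b v) 0

/-- level set. -/
def lev (V : Finset ℕ) (lab : ℕ → ℕ) (j : ℕ) : Finset ℕ := V.filter fun v => j ≤ lab v

/-- capacity between levels `j` and `j-1` (for `1 ≤ j`). -/
def Net.zed (N : Net) (E : Finset ℕ) (lab : ℕ → ℕ) (j : ℕ) : ℕ :=
  ∑ e ∈ E, if (lab (N.src e) = j ∧ lab (N.dst e) + 1 = j) ∨ (lab (N.dst e) = j ∧ lab (N.src e) + 1 = j)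
    then N.cap e else 0

/-- per-level work weight of a touched vertex. -/
def Net.wt (N : Net) (E : Finset ℕ) (v : ℕ) : ℕ :=
  1 + (N.adj v).length + 2 * (N.a v + N.cvol E v)

end Crest.Agent.N325.Lf
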