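import Crest.Agent.N325.Lf.Defs

/-! The push-relabel invariant. -/

set_option autoImplicit false
open Finset

namespace Crest.Agent.N325.Lf

structure Inv (N : Net) (V E : Finset ℕ) (s : St) : Prop extends Pre N V E s.f s.lab s.tch where
  x_eq : ∀ v, s.x v = N.dv E s.f v
  W_mem : ∀ v ∈ s.W, v ∈ V
  W_act : ∀ v ∈ V, 0 < N.ex s.x v → s.lab v < N.h → v ∈ s.W
  cur_sub : ∀ v, ∀ e ∈ s.cur v, e ∈ N.adj v
  cur_adm : ∀ v ∈ V, ∀ e ∈ N.adj v, s.lab v = s.lab (N.oth v e) + 1 → 0 < N.res s.f v e →
    e ∈ s.cur v

variable {N : Net} {V E : Finset ℕ}

theorem dv_zero (v : ℕ) : N.dv E (fun _ => 0) v = 0 := by simp [Net.dv]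

theorem dv_update {f : ℕ → ℤ} {e : ℕ} (he : e ∈ E) (y : ℤ) (w : ℕ) :
    N.dv E (Function.update f e y) w = N.dv E f w +
      ((if N.dst e = w then y - f e else 0) - (if N.src e = w then y - f e else 0)) := by
  unfold Net.dv
  rw [← add_sum_erase _ _ he, ← add_sum_erase E _ he]
  have : ∑ x ∈ E.erase e, ((if N.dst x = w then Function.update f e y x else 0) -
      (if N.src x = w then Function.update f e y x else 0)) =
      ∑ x ∈ E.erase e, ((if N.dst x = w then f x else 0) - (if N.src x = w then f x else 0)) := by
    refine sum_congr rfl fun x hx => ?_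
    rw [Function.update_of_ne (ne_of_mem_erase hx)]
  rw [this, Function.update_self]
  split_ifs <;> ring

theorem cap_pos_of_res {f : ℕ → ℤ} {lab : ℕ → ℕ} {tch : List ℕ} (hp : Pre N V E f lab tch)
    {v e : ℕ} (h : 0 < N.res f v e) : 0 < N.cap e := by
  have h1 := hp.le_cap e
  have h2 := hp.neg_le e
  unfold Net.res at h
  split_ifs at h <;> omega

theorem inc_of_res {f : ℕ → ℤ} {v e : ℕ} (h : 0 < N.res f v e) : N.src e = v ∨ N.dst e = v := by
  unfold Net.res at h
  split_ifs at h with h1 h2
  · exact Or.inl h1
  · exact Or.inr h2
  · omega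

theorem valid_res (hN : N.WF V E) {f : ℕ → ℤ} {lab : ℕ → ℕ} {tch : List ℕ}
    (hp : Pre N V E f lab tch) {v e : ℕ} (hv : v ∈ V) (he : e ∈ N.adj v) (h : 0 < N.res f v e) :
    lab v ≤ lab (N.oth v e) + 1 := by
  have hE := hN.live v hv e he (cap_pos_of_res hp h)
  unfold Net.res at h
  unfold Net.oth
  split_ifs at h ⊢ with hs hd
  · have := hp.fwd e hE (by omega); rw [hs] at this; exact this
  · have := hp.bwd e hE (by omega); rw [hd] at this; exact this
  · omega

theorem inv_init (hN : N.WF V E) {W0 : List ℕ} (hS : Start N V W0) : Inv N V E (init W0) where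
  le_cap e := by simp [init]
  neg_le e := by simp [init]
  supp e h := by simp [init] at h
  nonneg v _ := by simp [init, dv_zero]
  sat v h := by simp [init] at h
  fwd e _ _ := by simp [init]
  bwd e _ _ := by simp [init]
  lab_le v := by simp [init]
  tch_nodup := by simp [init]
  tch_iff v := by simp [init]
  tch_mem v h := by simp [init] at h
  x_eq v := by simp [init, dv_zero]
  W_mem v h := hS.mem v h
  W_act v hv h _ := hS.act v hv (by simp [init, Net.ex] at h; omega)
  cur_sub v e h := by simp [init] at h
  cur_adm v _ e _ h := by simp [init] at h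

theorem inv_pop {s : St} (hs : Inv N V E s) {v : ℕ} {W' : List ℕ} (hW : s.W = v :: W')
    (h : N.ex s.x v ≤ 0 ∨ N.h ≤ s.lab v) : Inv N V E { s with W := W' } where
  toPre := hs.toPre
  x_eq := hs.x_eq
  W_mem w hw := hs.W_mem w (by rw [hW]; exact List.mem_cons_of_mem _ hw)
  W_act w hw h1 h2 := by
    have := hs.W_act w hw h1 h2
    rw [hW] at this
    rcases List.mem_cons.1 this with rfl | h3
    · simp only at h1 h2; omega
    · exact h3
  cur_sub := hs.cur_sub
  cur_adm := hs.cur_adm

theorem inv_adv {s : St} (hs : Inv N V E s) {v e : ℕ} {es : List ℕ} (hc : s.cur v = e :: es)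
    (h : ¬ (s.lab v = s.lab (N.oth v e) + 1 ∧ 0 < N.res s.f v e)) :
    Inv N V E { s with cur := Function.update s.cur v es } where
  toPre := hs.toPre
  x_eq := hs.x_eq
  W_mem := hs.W_mem
  W_act := hs.W_act
  cur_sub w e' he' := by
    by_cases hw : w = v
    · subst hw
      simp only [Function.update_self] at he'
      exact hs.cur_sub w e' (by rw [hc]; exact List.mem_cons_of_mem _ he')
    · simp only [Function.update_of_ne hw] at he'
      exact hs.cur_sub w e' he'
  cur_adm w hw e' he' h1 h2 := by
    have := hs.cur_adm w hw e' he' h1 h2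
    by_cases hwv : w = v
    · subst hwv
      simp only [Function.update_self]
      rw [hc] at this
      rcases List.mem_cons.1 this with rfl | h3
      · exact absurd ⟨h1, h2⟩ h
      · exact h3
    · simp only [Function.update_of_ne hwv]; exact this

theorem inv_relabel (hN : N.WF V E) {s : St} (hs : Inv N V E s) {v : ℕ} (hv : v ∈ V)
    (hex : 0 < N.ex s.x v) (hl : s.lab v < N.h) (hc : s.cur v = []) :
    Inv N V E (relabel N s v) := by
  have hmono : ∀ w, s.lab w ≤ Function.update s.lab v (s.lab v + 1) w := by
    intro w; by_cases hw : w = v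
    · subst hw; simp
    · simp [Function.update_of_ne hw]
  have hna : ∀ e ∈ N.adj v, 0 < N.res s.f v e → s.lab v ≤ s.lab (N.oth v e) := by
    intro e he hr
    have h1 := valid_res hN hs.toPre hv he hr
    by_contra h2
    have := hs.cur_adm v hv e he (by omega) hr
    rw [hc] at this; simp at this
  refine
    { le_cap := hs.le_cap, neg_le := hs.neg_le, supp := ?_, nonneg := hs.nonneg, sat := ?_,
      fwd := ?_, bwd := ?_, lab_le := ?_, tch_nodup := ?_, tch_iff := ?_, tch_mem := ?_,
      x_eq := hs.x_eq, W_mem := hs.W_mem, W_act := ?_, cur_sub := ?_, cur_adm := ?_ }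
  · intro e he
    obtain ⟨h1, h2⟩ := hs.supp e he
    refine ⟨h1, ?_⟩
    have := hmono (N.src e); have := hmono (N.dst e)
    simp only [relabel]; omega
  · intro w hw
    by_cases hwv : w = v
    · subst hwv
      have := hs.x_eq w
      simp only [relabel, Net.ex] at hex ⊢; omega
    · simp only [relabel, Function.update_of_ne hwv] at hw
      exact hs.sat w hw
  · intro e he hf
    simp only [relabel] at hf ⊢
    by_cases h1 : N.src e = v
    · by_cases h2 : N.dst e = v
      · rw [h1, h2]; omega
      · have hcap : 0 < N.cap e := by have := hs.neg_le e; omega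
        have hadj := (hN.full e he hcap).1
        rw [h1] at hadj
        have := hna e hadj (by unfold Net.res; rw [if_pos h1]; omega)
        unfold Net.oth at this; rw [if_pos h1] at this
        rw [h1, Function.update_self, Function.update_of_ne h2]; omega
    · have := hs.fwd e he hf
      have := hmono (N.dst e)
      rw [Function.update_of_ne h1]; omega
  · intro e he hf
    simp only [relabel] at hf ⊢
    by_cases h2 : N.dst e = v
    · by_cases h1 : N.src e = v
      · rw [h1, h2]; omega
      · have hcap : 0 < N.cap e := by have := hs.le_cap e; omega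
        have hadj := (hN.full e he hcap).2
        rw [h2] at hadj
        have := hna e hadj (by unfold Net.res; rw [if_neg h1, if_pos h2]; omega)
        unfold Net.oth at this; rw [if_neg h1] at this
        rw [h2, Function.update_self, Function.update_of_ne h1]; omega
    · have := hs.bwd e he hf
      have := hmono (N.src e)
      rw [Function.update_of_ne h2]; omega
  · intro w
    simp only [relabel]
    by_cases hwv : w = v
    · subst hwv; simp; omega
    · rw [Function.update_of_ne hwv]; exact hs.lab_le w
  · simp only [relabel]
    split_ifs with h0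
    · refine List.nodup_cons.2 ⟨fun h => ?_, hs.tch_nodup⟩
      have := (hs.tch_iff v).1 h; omega
    · exact hs.tch_nodup
  · intro w
    simp only [relabel]
    by_cases hwv : w = v
    · subst hwv
      rw [Function.update_self]
      split_ifs with h0
      · simp
      · simp only [Nat.succ_pos, iff_true]; exact (hs.tch_iff w).2 (by omega)
    · rw [Function.update_of_ne hwv]
      split_ifs with h0
      · rw [List.mem_cons]; simp only [hwv, false_or]; exact hs.tch_iff w
      · exact hs.tch_iff w
  · intro w hw
    simp only [relabel] at hw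
    split_ifs at hw with h0
    · rcases List.mem_cons.1 hw with rfl | h
      · exact hv
      · exact hs.tch_mem w h
    · exact hs.tch_mem w hw
  · intro w hw h1 h2
    have := hmono w
    simp only [relabel] at h1 h2 ⊢
    exact hs.W_act w hw h1 (by omega)
  · intro w e he
    simp only [relabel] at he
    by_cases hwv : w = v
    · subst hwv; rwa [Function.update_self] at he
    · rw [Function.update_of_ne hwv] at he; exact hs.cur_sub w e he
  · intro w hw e he h1 h2
    simp only [relabel] at h1 h2 ⊢
    by_cases hwv : w = v
    · subst hwv; rwa [Function.update_self]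
    · rw [Function.update_of_ne hwv] at h1 ⊢
      by_cases ho : N.oth w e = v
      · have := valid_res hN hs.toPre hw he h2
        rw [ho, Function.update_self] at h1
        rw [ho] at this; omega
      · rw [Function.update_of_ne ho] at h1
        exact hs.cur_adm w hw e he h1 h2

theorem inv_push (hN : N.WF V E) {s : St} (hs : Inv N V E s) {v e : ℕ} (hv : v ∈ V)
    (hW : v ∈ s.W) (he : e ∈ s.cur v) (hl : s.lab v = s.lab (N.oth v e) + 1) {d : ℤ} (hd0 : 0 < d)
    (hd1 : d ≤ N.ex s.x v) (hd2 : d ≤ N.res s.f v e) : Inv N V E (push N s v e d) := by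
  have hadj := hs.cur_sub v e he
  have hcap : 0 < N.cap e := cap_pos_of_res hs.toPre (v := v) (by omega)
  have hE := hN.live v hv e hadj hcap
  have hi : N.src e = v ∨ N.dst e = v := inc_of_res (f := s.f) (by omega)
  have huv : N.oth v e ≠ v := by intro h; rw [h] at hl; omega
  have huV : N.oth v e ∈ V := by
    unfold Net.oth; split_ifs
    · exact hN.dst_mem e hE
    · exact hN.src_mem e hE
  have hc1 := hs.le_cap e
  have hc2 := hs.neg_le e
  have hx : ∀ w, (push N s v e d).x w = N.dv E (push N s v e d).f w := by
    intro w
    simp only [push]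
    rw [dv_update hE, ← hs.x_eq w]
    by_cases h1 : N.src e = v
    · have ho : N.oth v e = N.dst e := by unfold Net.oth; rw [if_pos h1]
      rw [ho] at huv ⊢
      rw [if_pos h1]
      by_cases h2 : w = N.dst e
      · subst h2
        rw [Function.update_self, if_pos rfl, if_neg (by rw [h1]; exact huv.symm)]; ring
      · rw [Function.update_of_ne h2, if_neg (Ne.symm h2)]
        by_cases h3 : w = v
        · subst h3; rw [Function.update_self, if_pos h1]; ring
        · rw [Function.update_of_ne h3, if_neg (by rw [h1]; exact Ne.symm h3)]; ring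
    · have ho : N.oth v e = N.src e := by unfold Net.oth; rw [if_neg h1]
      have h0 : N.dst e = v := hi.resolve_left h1
      rw [ho] at huv ⊢
      rw [if_neg h1]
      by_cases h2 : w = N.src e
      · subst h2
        rw [Function.update_self, if_pos rfl, if_neg (by rw [h0]; exact huv.symm)]; ring
      · rw [Function.update_of_ne h2, if_neg (Ne.symm h2)]
        by_cases h3 : w = v
        · subst h3; rw [Function.update_self, if_pos h0]; ring
        · rw [Function.update_of_ne h3, if_neg (by rw [h0]; exact Ne.symm h3)]; ring
  have hxv : (push N s v e d).x v = s.x v - d := by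
    simp only [push]; rw [Function.update_of_ne huv.symm, Function.update_self]
  have hxo : ∀ w, w ≠ v → s.x w ≤ (push N s v e d).x w := by
    intro w hw
    simp only [push]
    by_cases h2 : w = N.oth v e
    · subst h2; rw [Function.update_self]; omega
    · rw [Function.update_of_ne h2, Function.update_of_ne hw]
  have hxn : ∀ w, w ≠ v → w ≠ N.oth v e → (push N s v e d).x w = s.x w := by
    intro w hw h2
    simp only [push]
    rw [Function.update_of_ne h2, Function.update_of_ne hw]
  have hf : ∀ e', e' ≠ e → (push N s v e d).f e' = s.f e' := by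
    intro e' h; simp only [push]; rw [Function.update_of_ne h]
  have hfe : (push N s v e d).f e = if N.src e = v then s.f e + d else s.f e - d := by
    simp only [push]; rw [Function.update_self]
  have hlab : (push N s v e d).lab = s.lab := rfl
  unfold Net.res at hd2
  unfold Net.ex at hd1
  refine
    { le_cap := ?_, neg_le := ?_, supp := ?_, nonneg := ?_, sat := ?_,
      fwd := ?_, bwd := ?_, lab_le := hs.lab_le, tch_nodup := hs.tch_nodup,
      tch_iff := hs.tch_iff, tch_mem := hs.tch_mem,
      x_eq := hx, W_mem := ?_, W_act := ?_, cur_sub := hs.cur_sub, cur_adm := ?_ }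
  · intro e'
    by_cases h : e' = e
    · subst h; rw [hfe]; split_ifs at hd2 ⊢ <;> omega
    · rw [hf e' h]; exact hs.le_cap e'
  · intro e'
    by_cases h : e' = e
    · subst h; rw [hfe]; split_ifs at hd2 ⊢ <;> omega
    · rw [hf e' h]; exact hs.neg_le e'
  · intro e' h'
    by_cases h : e' = e
    · subst h
      refine ⟨hE, ?_⟩
      rw [hlab]
      rcases hi with h1 | h1 <;> rw [h1] <;> omega
    · rw [hf e' h] at h'; exact hs.supp e' h'
  · intro w hw
    rw [← hx w]
    by_cases h : w = v
    · subst h; rw [hxv]; omega
    · have := hxo w h; have := hs.nonneg w hw; have := hs.x_eq w; omega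
  · intro w hw
    rw [← hx w]
    by_cases h : w = v
    · subst h; rw [hxv]; omega
    · have := hxo w h; have := hs.sat w hw; have := hs.x_eq w; omega
  · intro e' he' h'
    rw [hlab]
    by_cases h : e' = e
    · subst h
      rw [hfe] at h'
      split_ifs at h' with h1
      · exact hs.fwd e' he' (by omega)
      · have h0 : N.dst e' = v := hi.resolve_left h1
        unfold Net.oth at hl; rw [if_neg h1] at hl
        rw [h0]; omega
    · rw [hf e' h] at h'; exact hs.fwd e' he' h'
  · intro e' he' h'
    rw [hlab]
    by_cases h : e' = e
    · subst h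
      rw [hfe] at h'
      split_ifs at h' with h1
      · unfold Net.oth at hl; rw [if_pos h1] at hl
        rw [h1]; omega
      · exact hs.bwd e' he' (by omega)
    · rw [hf e' h] at h'; exact hs.bwd e' he' h'
  · intro w hw
    simp only [push] at hw
    rcases List.mem_cons.1 hw with rfl | h
    · exact huV
    · exact hs.W_mem w h
  · intro w hw h1 h2
    have hWW : (push N s v e d).W = N.oth v e :: s.W := rfl
    rw [hWW]
    by_cases h : w = v
    · subst h; exact List.mem_cons_of_mem _ hW
    · by_cases h' : w = N.oth v e
      · subst h'; exact List.mem_cons_self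
      · refine List.mem_cons_of_mem _ (hs.W_act w hw ?_ h2)
        unfold Net.ex at h1 ⊢; rw [hxn w h h'] at h1; exact h1
  · intro w hw e' he' h1 h2
    rw [hlab] at h1
    have hcc : (push N s v e d).cur = s.cur := rfl
    rw [hcc]
    by_cases h : e' = e
    · subst h
      by_cases hwv : w = v
      · subst hwv; exact he
      · exfalso
        have hi' := inc_of_res h2
        unfold Net.oth at hl h1
        by_cases h3 : N.src e' = v
        · have h4 : N.src e' ≠ w := by rw [h3]; exact Ne.symm hwv
          have h5 : N.dst e' = w := hi'.resolve_left h4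
          rw [if_pos h3, h5] at hl
          rw [if_neg h4, h3] at h1; omega
        · have h0 : N.dst e' = v := hi.resolve_left h3
          have h4 : N.src e' = w := by
            rcases hi' with h | h
            · exact h
            · exact absurd (h.symm.trans h0) hwv
          rw [if_neg h3, h4] at hl
          rw [if_pos h4, h0] at h1; omega
    · refine hs.cur_adm w hw e' he' h1 ?_
      unfold Net.res at h2 ⊢; rw [hf e' h] at h2; exact h2

theorem inv_step (hN : N.WF V E) {s : St} (hs : Inv N V E s) : Inv N V E (step N s) := by
  unfold step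
  split
  · exact hs
  · rename_i v W' hW
    have hvW : v ∈ s.W := by rw [hW]; exact List.mem_cons_self
    have hv := hs.W_mem v hvW
    split_ifs with h
    · exact inv_pop hs hW h
    · push Not at h
      split
      · rename_i hc; exact inv_relabel hN hs hv h.1 h.2 hc
      · rename_i e es hc
        split_ifs with h2
        · exact inv_push hN hs hv hvW (by rw [hc]; exact List.mem_cons_self) h2.1
            (lt_min h.1 h2.2) (min_le_left _ _) (min_le_right _ _)
        · exact inv_adv hs hc h2

theorem inv_iter (hN : N.WF V E) {s : St} (hs : Inv N V E s) (n : ℕ) :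
    Inv N V E ((step N)^[n] s) := by
  induction n with
  | zero => exact hs
  | succ n ih => rw [Function.iterate_succ_apply']; exact inv_step hN ih

theorem inv_runN (hN : N.WF V E) {W0 : List ℕ} (hS : Start N V W0) (n : ℕ) :
    Inv N V E (runN N W0 n) := inv_iter hN (inv_init hN hS) n

/-- a state with empty work list is a valid output. -/
theorem Inv.out {s : St} (hs : Inv N V E s) (hW : s.W = []) : Out N V E s.f s.lab s.tch where
  toPre := hs.toPre
  low v hv hl := by
    by_contra h
    have := hs.W_act v hv (by unfold Net.ex; rw [hs.x_eq v]; omega) hl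
    rw [hW] at this; simp at this

end Crest.Agent.N325.Lf
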