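import Crest.Agent.N325.M0.Mon
import Crest.Agent.N325.Lf.Defs

/-! LocalFlow as an `R`-program (helper30): the machine on arrays and its refinement. -/

set_option autoImplicit false
open Finset

namespace Crest.Agent.N325.Lf

/-- a while loop whose number of turns is bounded through the elapsed time -/
theorem sp_whileF_t {σ : Type} {g : Gl} {c : σ → Bool} {f : σ → R σ} (I : σ → ℕ → Prop) (T : ℕ)
    (h : ∀ s t, I s t → c s = true → t < T ∧ Sp g (f s) fun s' u => I s' (t + 1 + u))
    {n : ℕ} {s : σ} {t : ℕ} (h0 : I s t) (hn : T < t + n) :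
    Sp g (whileF c f n s) fun s' u => c s' = false ∧ ∃ u', u = u' + 1 ∧ I s' (t + u') := by
  induction n generalizing s t with
  | zero =>
    refine ⟨Nat.zero_le _, ?_, 0, rfl, h0⟩
    by_contra e
    have := (h s t h0 (by simpa using e)).1
    omega
  | succ n ih =>
    refine ⟨Nat.zero_le _, ?_⟩
    by_cases e : c s = true
    · rw [if_pos e]
      refine (h s t h0 e).2.bind fun s' u k => (ih k (by omega)).mono ?_
      rintro s'' _ ⟨a, u', rfl, k'⟩
      exact ⟨a, 1 + u + u', by omega, by convert k' using 1; omega⟩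
    · rw [if_neg e]
      exact ⟨Bool.eq_false_iff.2 e, 0, rfl, h0⟩

/-- the state on arrays: flow, net inflow, labels, current arcs, work list, touched list -/
abbrev SA : Type := Arr ℤ × Arr ℤ × Arr ℕ × Arr (List ℕ) × List ℕ × List ℕ

def toSt (s : SA) : St := ⟨s.1.get, s.2.1.get, s.2.2.1.get, s.2.2.2.1.get, s.2.2.2.2.1, s.2.2.2.2.2⟩

def initA (W0 : List ℕ) : SA := (.cst 0, .cst 0, .cst 0, .cst [], W0, [])

theorem toSt_init (W0 : List ℕ) : toSt (initA W0) = init W0 := rfl

/-- a push of `d` units from `v` along `e` -/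
def pushR (N : Net) (s : SA) (v e : ℕ) (d : ℤ) : R SA := do
  let f' ← int (if N.src e = v then s.1.get e + d else s.1.get e - d)
  let x1 ← int (s.2.1.get v - d)
  let x2 ← int (s.2.1.get (N.oth v e) + d)
  pure (s.1.set e f', (s.2.1.set v x1).set (N.oth v e) x2, s.2.2.1, s.2.2.2.1,
    N.oth v e :: s.2.2.2.2.1, s.2.2.2.2.2)

/-- scanning the arc `e` (rest `es`) at `v` -/
def arcR (N : Net) (s : SA) (v e : ℕ) (es : List ℕ) : R SA :=
  if s.2.2.1.get v = s.2.2.1.get (N.oth v e) + 1 ∧ 0 < N.res s.1.get v e then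
    pushR N s v e (min (N.ex s.2.1.get v) (N.res s.1.get v e))
  else pure (s.1, s.2.1, s.2.2.1, s.2.2.2.1.set v es, s.2.2.2.2.1, s.2.2.2.2.2)

/-- relabelling `v` -/
def relA (N : Net) (s : SA) (v : ℕ) : SA :=
  (s.1, s.2.1, s.2.2.1.set v (s.2.2.1.get v + 1), s.2.2.2.1.set v (N.adj v), s.2.2.2.2.1,
    if s.2.2.1.get v = 0 then v :: s.2.2.2.2.2 else s.2.2.2.2.2)

/-- the step at the head `v` of the work list (rest `W'`) -/
def headR (N : Net) (s : SA) (v : ℕ) (W' : List ℕ) : R SA :=
  if N.ex s.2.1.get v ≤ 0 ∨ N.h ≤ s.2.2.1.get v then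
    pure (s.1, s.2.1, s.2.2.1, s.2.2.2.1, W', s.2.2.2.2.2)
  else List.casesOn (motive := fun _ => R SA) (s.2.2.2.1.get v) (pure (relA N s v))
    fun e es => arcR N s v e es

def stepR (N : Net) (s : SA) : R SA :=
  List.casesOn (motive := fun _ => R SA) s.2.2.2.2.1 (pure s) fun v W' => headR N s v W'

/-- the run of the machine -/
def runR (N : Net) (W0 : List ℕ) (fu : ℕ) : R SA :=
  whileF (fun s => !s.2.2.2.2.1.isEmpty) (stepR N) fu (initA W0)

/-- one step of the program is one step of the machine, if the new numbers are small -/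
theorem sp_stepR {g : Gl} (N : Net) (s : SA)
    (hf : ∀ e, ((step N (toSt s)).f e).natAbs ≤ g.X)
    (hx : ∀ v, ((step N (toSt s)).x v).natAbs ≤ g.X) :
    Sp g (stepR N s) fun s' u => toSt s' = step N (toSt s) ∧ u = 0 := by
  obtain ⟨f, x, lab, cur, W, tch⟩ := s
  cases W with
  | nil => exact ⟨rfl, rfl⟩
  | cons v W' =>
    simp only [stepR, headR, step, toSt] at hf hx ⊢
    by_cases h1 : N.ex x.get v ≤ 0 ∨ N.h ≤ lab.get v
    · simp only [if_pos h1, sp_pure, and_self]
    · simp only [if_neg h1] at hf hx ⊢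
      cases hc : cur.get v with
      | nil =>
        simp only [sp_pure, relA, relabel, Arr.set_get, and_self]
      | cons e es =>
        simp only [hc, arcR] at hf hx ⊢
        by_cases h2 : lab.get v = lab.get (N.oth v e) + 1 ∧ 0 < N.res f.get v e
        · simp only [if_pos h2] at hf hx ⊢
          have hne : v ≠ N.oth v e := fun k => by have := h2.1; rw [← k] at this; omega
          have a1 := hf e
          have a2 := hx v
          have a3 := hx (N.oth v e)
          simp only [push, Function.update_self, Function.update_of_ne hne] at a1 a2 a3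
          simp only [pushR, sp_bind, sp_int, sp_pure, push, Arr.set_get]
          exact ⟨a1, a2, a3, trivial, trivial⟩
        · simp only [if_neg h2, sp_pure, Arr.set_get, and_self]

/-- the program computes a finished run -/
theorem sp_runR {g : Gl} (N : Net) (W0 : List ℕ) {fu T : ℕ} (hT : T < fu)
    (hend : ∀ n, (runN N W0 n).W ≠ [] → n < T)
    (hf : ∀ n e, ((runN N W0 n).f e).natAbs ≤ g.X)
    (hx : ∀ n v, ((runN N W0 n).x v).natAbs ≤ g.X) :
    Sp g (runR N W0 fu) fun s u => ∃ n, toSt s = runN N W0 n ∧ (runN N W0 n).W = [] ∧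
      u = n + 1 ∧ n ≤ T := by
  have key := sp_whileF_t (g := g) (c := fun s : SA => !s.2.2.2.2.1.isEmpty) (f := stepR N)
    (fun s t => toSt s = runN N W0 t ∧ t ≤ T) T (fun s t k e => by
      have hW : (runN N W0 t).W ≠ [] := by
        rw [← k.1]; intro h0
        have : s.2.2.2.2.1 = [] := h0
        simp [this] at e
      have hs : step N (toSt s) = runN N W0 (t + 1) := by
        rw [k.1, runN, runN, Function.iterate_succ_apply']
      refine ⟨hend t hW, (sp_stepR N s ?_ ?_).mono ?_⟩
      · rw [hs]; exact hf _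
      · rw [hs]; exact hx _
      · rintro s' u ⟨a, rfl⟩
        exact ⟨a.trans hs, hend t hW⟩)
    (n := fu) (s := initA W0) (t := 0) ⟨rfl, Nat.zero_le _⟩ (by omega)
  refine key.mono ?_
  rintro s u ⟨a, u', rfl, k⟩
  rw [zero_add] at k
  refine ⟨u', k.1, ?_, rfl, k.2⟩
  rw [← k.1]
  simpa [toSt] using a

end Crest.Agent.N325.Lf
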